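import Vale.Agent.P095.General.Chain.Ideal
import Vale.Agent.P101.Stage4

/-!
Chain, part 3: the relations of two by two matrices with invariant family leave no character on
the fixed point algebra. Folding many commuting copies gives an invariant family whose complement
sees only low spectrum of every copy, and sectors carry the complement away from itself.
-/

noncomputable section

open Filter Topology

namespace Vale.Agent.P095.General

open Vale.Agent.P101
open Vale.Agent.P101.CombineN (IsOrderZero supp)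
open Vale.Agent.P101.Stage4 (ramp continuous_ramp supp_sa fam fam_good)

universe u v

section Scalar

/-- The low cut. -/
def lowb (t : ℝ) : ℝ := 1 - ramp (1 / 5) (2 / 5) t

/-- The low frame. -/
def lowo (t : ℝ) : ℝ := 1 - ramp (2 / 5) (3 / 5) t

/-- The high frame. -/
def highp (t : ℝ) : ℝ := ramp (4 / 5) (9 / 10) t

/-- The normalisation of the partial isometry. -/
def lowv (t : ℝ) : ℝ := lowb t / Real.sqrt (max (1 - t) (1 / 2))

lemma continuous_lowb : Continuous lowb := continuous_const.sub (continuous_ramp _ _)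

lemma continuous_lowo : Continuous lowo := continuous_const.sub (continuous_ramp _ _)

lemma continuous_highp : Continuous highp := continuous_ramp _ _

lemma continuous_lowv : Continuous lowv :=
  continuous_lowb.div (by fun_prop) fun _ =>
    (Real.sqrt_pos.2 (lt_of_lt_of_le one_half_pos (le_max_right _ _))).ne'

lemma abs_one_sub_ramp (a b t : ℝ) : |1 - ramp a b t| ≤ 1 := by
  rw [abs_le]
  constructor <;> linarith [Stage4.ramp_nonneg a b t, Stage4.ramp_le_one a b t]

lemma abs_ramp (a b t : ℝ) : |ramp a b t| ≤ 1 := by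
  rw [abs_of_nonneg (Stage4.ramp_nonneg a b t)]
  exact Stage4.ramp_le_one a b t

lemma lowb_eq_zero {t : ℝ} (h : 2 / 5 ≤ t) : lowb t = 0 := by
  rw [lowb, Stage4.ramp_of_ge (by norm_num) h, sub_self]

lemma lowo_mul_lowb (t : ℝ) : lowo t * lowb t = lowb t := by
  rcases le_or_gt t (2 / 5) with h | h
  · rw [lowo, Stage4.ramp_of_le (by norm_num) h, sub_zero, one_mul]
  · rw [lowb_eq_zero h.le, mul_zero]

lemma lowo_mul_highp (t : ℝ) : lowo t * highp t = 0 := by
  rcases le_or_gt t (4 / 5) with h | h
  · rw [highp, Stage4.ramp_of_le (by norm_num) h, mul_zero]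
  · rw [lowo, Stage4.ramp_of_ge (by norm_num) (by linarith), sub_self, zero_mul]

lemma lowv_mul_lowo (t : ℝ) : lowv t * lowo t = lowv t := by
  rw [lowv, div_mul_eq_mul_div, mul_comm, lowo_mul_lowb]

lemma lowv_sq (t : ℝ) : lowv t * (1 - t) * lowv t = lowb t * lowb t := by
  rcases le_or_gt (2 / 5) t with h | h
  · simp [lowv, lowb_eq_zero h]
  · have h1 : max (1 - t) (1 / 2) = 1 - t := max_eq_left (by linarith)
    have h2 : 0 < 1 - t := by linarith
    rw [lowv, h1]
    field_simp
    rw [Real.sq_sqrt h2.le]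

lemma highp_one : highp 1 = 1 := by rw [highp, Stage4.ramp_of_ge (by norm_num) (by norm_num)]

lemma highp_split (t : ℝ) : highp t = 1 + (t - 1) * ((highp t - 1) / min (t - 1) (-1 / 10)) := by
  rcases le_or_gt t (9 / 10) with h | h
  · rw [min_eq_left (by linarith), mul_div_cancel₀ _ (by linarith : t - 1 ≠ 0)]
    ring
  · rw [highp, Stage4.ramp_of_ge (by norm_num) h.le]
    simp

end Scalar

section Local

variable {D : Type u} [CStarAlgebra D]

/-- A high frame fixes whatever the support fixes. -/
lemma cfc_highp_mul {H x : D} (hH : IsSelfAdjoint H) (h : H * x = x) : cfc highp H * x = x := by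
  set g : ℝ → ℝ := fun t => (highp t - 1) / min (t - 1) (-1 / 10) with hg
  have hc : Continuous g := (continuous_highp.sub continuous_const).div (by fun_prop) fun t =>
    ne_of_lt (lt_of_le_of_lt (min_le_right _ _) (by norm_num))
  have e : cfc highp H = 1 + cfc g H * (H - 1) := by
    rw [show highp = fun t => 1 + g t * (t - 1) from funext fun t => by
        rw [hg]; conv_lhs => rw [highp_split t, mul_comm (t - 1)],
      cfc_add (a := H) (fun _ : ℝ => (1 : ℝ)) (fun t => g t * (t - 1)) continuousOn_const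
        (hc.mul (continuous_id.sub continuous_const)).continuousOn,
      cfc_mul g (fun t : ℝ => t - 1) H hc.continuousOn (continuous_id.sub continuous_const).continuousOn,
      cfc_sub (fun t : ℝ => t) (fun _ => (1 : ℝ)) H, cfc_id' ℝ H, cfc_const_one ℝ H]
  rw [e, add_mul, mul_assoc, sub_mul, h, one_mul, sub_self, mul_zero, add_zero]

/-- Rescaling an order zero family by a function of its support. -/
lemma rescale {n : ℕ} {F : Fin n → Fin n → D} (hF : IsOrderZero F)
    (hs : ∀ i j, star (F i j) = F j i) (k : ℝ → ℝ) :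
    IsOrderZero (fun i j => F i j * cfc k (supp F)) ∧
      (∀ i j, star (F i j * cfc k (supp F)) = F j i * cfc k (supp F)) ∧
      supp (fun i j => F i j * cfc k (supp F)) = supp F * cfc k (supp F) := by
  have hc : ∀ i j, Commute (cfc k (supp F)) (F i j) := fun i j =>
    Commute.cfc_real (hF.commute_supp i j) k
  have hsum : supp (fun i j => F i j * cfc k (supp F)) = supp F * cfc k (supp F) := by
    rw [supp, ← Finset.sum_mul, ← supp]
  refine ⟨⟨fun i j a b => ?_⟩, fun i j => ?_, hsum⟩
  · rw [hsum, (hc a b).mul_mul_mul_comm, hF.mul_eq]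
    split
    · simp only [mul_assoc]
      rw [← mul_assoc (F i b) (cfc k (supp F)) (cfc k (supp F)), ← (hc i b).eq, mul_assoc,
        ← (hc i b).eq]
    · rw [zero_mul]
  · rw [star_mul, (cfc_predicate k (supp F) : IsSelfAdjoint _).star_eq, hs, (hc j i).eq]

/-- Entries are no larger than the support. -/
lemma norm_entry_le {n : ℕ} {F : Fin n → Fin n → D} (hF : IsOrderZero F)
    (hs : ∀ i j, star (F i j) = F j i) {r : ℝ} (hr : ‖supp F‖ ≤ r) (i j : Fin n) :
    ‖F i j‖ ≤ r := by
  have hr0 : 0 ≤ r := (norm_nonneg _).trans hr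
  have h1 : ∀ a, ‖F a a‖ ≤ r := fun a => by
    rcases eq_or_ne (F a a) 0 with h | h
    · rw [h, norm_zero]; exact hr0
    · have h2 : ‖F a a‖ * ‖F a a‖ ≤ ‖supp F‖ * ‖F a a‖ := by
        rw [← CStarRing.norm_star_mul_self, hs, hF.mul_eq, if_pos rfl]
        exact norm_mul_le _ _
      exact le_trans (le_of_mul_le_mul_right h2 (norm_pos_iff.2 h)) hr
  refine Stage4.norm_self_le hr0 ?_
  rw [hs, hF.mul_eq, if_pos rfl]
  exact (norm_mul_le _ _).trans (mul_le_mul hr (h1 j) (norm_nonneg _) hr0)

/-- Folding stays inside a subalgebra containing the families. -/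
lemma fold_mem {n : ℕ} (F : StarSubalgebra ℂ D) (f : ℕ → Fin n → Fin n → D)
    (hf : ∀ a i j, f a i j ∈ F) : ∀ k i j, CombineN.fold f k i j ∈ F := by
  intro k
  induction k with
  | zero => exact fun i j => zero_mem F
  | succ k ih =>
    intro i j
    simp only [CombineN.fold, CombineN.combine, CombineN.comb, CombineN.left, CombineN.right, supp]
    repeat' first
      | apply add_mem
      | apply sub_mem
      | apply mul_mem
      | apply SMulMemClass.smul_mem
      | apply pow_mem
      | (apply sum_mem; intro _ _)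
      | exact ih _ _
      | exact hf k _ _

/-- Characters kill the supports of two by two families. -/
lemma char_supp {A : Type u} [Ring A] [StarRing A] [Algebra ℂ A] (χ : A →⋆ₐ[ℂ] ℂ) {F : Fin 2 → Fin 2 → A}
    (hF : IsOrderZero F) : χ (supp F) = 0 := by
  have h : ∀ i j k l, χ (F i j) * χ (F k l) = if j = k then χ (supp F) * χ (F i l) else 0 :=
    fun i j k l => by
      rw [← map_mul, hF.mul_eq]
      split <;> simp
  have ho : ∀ i j, i ≠ j → χ (F i j) = 0 := fun i j hij =>
    mul_self_eq_zero.1 (by rw [h, if_neg hij.symm])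
  have hd : ∀ i, χ (supp F) * χ (F i i) = 0 := fun i => by
    obtain ⟨j, hj⟩ : ∃ j, i ≠ j := ⟨i + 1, by fin_cases i <;> decide⟩
    have := h i j j i
    rw [if_pos rfl, ho i j hj, zero_mul] at this
    exact this.symm
  refine mul_self_eq_zero.1 ?_
  nth_rewrite 2 [supp]
  rw [map_sum, Finset.mul_sum]
  exact Finset.sum_eq_zero fun i _ => hd i

end Local

section Main

variable {G : Type v} [Group G] [Countable G] {D : Type u} [CStarAlgebra D] (sys : Sys G D)

/-- The unknowns: the folded family and the sector element. -/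
abbrev FoldIdx : Type := (Fin 2 × Fin 2) ⊕ Unit

/-- An invariant two by two family with a partial isometry from its complement into it leaves no
character on the fixed point algebra. -/
theorem no_char_of_comparison (hS : SectorStatement.{u, v}) (hG : Folner G)
    {E : Fin 2 → Fin 2 → D} {v : D} (hE : IsOrderZero E) (hs : ∀ i j, star (E i j) = E j i)
    (hfix : ∀ i j, E i j ∈ Finite.fixedAlg sys.act) (hv : star v * v = 1 - supp E)
    (hvfix : E 0 0 * v = v) : IsEmpty (Finite.fixedAlg sys.act →⋆ₐ[ℂ] ℂ) := by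
  classical
  let := CStarAlgebra.spectralOrder D
  have := CStarAlgebra.spectralOrderedRing D
  set S₀ : Set D := {v} ∪ Set.range fun a : Fin 2 × Fin 2 => E a.1 a.2 with hS₀
  have hS₀c : S₀.Countable := (Set.countable_singleton v).union (Set.countable_range _)
  obtain ⟨cc, hceq, -, hccfix⟩ := sys.exists_copies S₀ hS₀c
  let Eb : Fin 2 → Fin 2 → ↥(gen sys.act S₀) := fun i j =>
    ⟨E i j, subset_gen (Or.inr ⟨(i, j), rfl⟩)⟩
  let V : ↥(gen sys.act S₀) := ⟨v, subset_gen (Or.inl rfl)⟩
  set H := supp Eb with hH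
  have hsub : ∀ f : Fin 2 → ↥(gen sys.act S₀), ((∑ i, f i : ↥(gen sys.act S₀)) : D)
      = ∑ i, (f i : D) := fun f => map_sum (gen sys.act S₀).subtype f Finset.univ
  have hHc : (H : D) = supp E := hsub _
  have hEb : IsOrderZero Eb := ⟨fun i j k l => Subtype.ext (by
    have := hE.mul_eq i j k l
    rw [← hHc] at this
    split_ifs with h
    · rw [if_pos h] at this; exact this
    · rw [if_neg h] at this; exact this)⟩
  have hsb : ∀ i j, star (Eb i j) = Eb j i := fun i j => Subtype.ext (hs i j)
  have hHsa : IsSelfAdjoint H := supp_sa Eb hsb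
  have hHV : H * V = V := Subtype.ext (by
    show (H : D) * v = v
    rw [hHc]
    conv_lhs => rw [← hvfix, ← mul_assoc]
    have := hE.mul_eq 0 0 0 0
    rw [if_pos rfl] at this
    rw [← this, mul_assoc, hvfix, hvfix])
  have hVV : star V * V = 1 - H := Subtype.ext (by
    show star v * v = 1 - (H : D)
    rw [hHc, hv])
  let bl := cfc lowb H
  let ol := cfc lowo H
  let ph := cfc highp H
  let vl := V * cfc lowv H
  have sab : IsSelfAdjoint bl := cfc_predicate _ _
  have sao : IsSelfAdjoint ol := cfc_predicate _ _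
  have sap : IsSelfAdjoint ph := cfc_predicate _ _
  have r1 : star vl * vl = bl * bl := by
    simp only [vl, bl, star_mul, (cfc_predicate lowv H : IsSelfAdjoint _).star_eq]
    rw [mul_assoc, ← mul_assoc (star V), hVV, ← mul_assoc,
      ← cfc_mul lowb lowb H continuous_lowb.continuousOn continuous_lowb.continuousOn]
    conv_rhs => rw [cfc_congr (fun t _ => (lowv_sq t).symm)]
    rw [cfc_mul (fun t : ℝ => lowv t * (1 - t)) lowv H
        (continuous_lowv.mul (continuous_const.sub continuous_id)).continuousOn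
        continuous_lowv.continuousOn,
      cfc_mul lowv (fun t : ℝ => 1 - t) H continuous_lowv.continuousOn
        (continuous_const.sub continuous_id).continuousOn,
      cfc_sub (fun _ : ℝ => (1 : ℝ)) (fun t => t) H, cfc_const_one ℝ H, cfc_id' ℝ H]
  have r2 : ph * vl = vl := by
    simp only [ph, vl, ← mul_assoc, cfc_highp_mul hHsa hHV]
  have r3 : vl * ol = vl := by
    simp only [vl, ol, mul_assoc]
    rw [← cfc_mul lowv lowo H continuous_lowv.continuousOn continuous_lowo.continuousOn]
    simp only [lowv_mul_lowo]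
  have r4 : ol * bl = bl := by
    simp only [ol, bl]
    rw [← cfc_mul lowo lowb H continuous_lowo.continuousOn continuous_lowb.continuousOn]
    simp only [lowo_mul_lowb]
  have r5 : ol * ph = 0 := by
    simp only [ol, ph]
    rw [← cfc_mul lowo highp H continuous_lowo.continuousOn continuous_highp.continuousOn]
    simp only [lowo_mul_highp]
    exact cfc_const_zero ℝ H
  have hHfix : ∀ (f : ℝ → ℝ), Continuous f → ∀ g,
      sys.act g ((cfc f H : ↥(gen sys.act S₀)) : D) = ((cfc f H : ↥(gen sys.act S₀)) : D) := by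
    intro f hf g
    have e : genAct sys.act_mul S₀ g (cfc f H) = cfc f H := by
      rw [StarAlgHomClass.map_cfc (genAct sys.act_mul S₀ g) f H hf.continuousOn
        (continuous_act _) hHsa (hHsa.map _)]
      congr 1
      simp only [hH, supp, map_sum]
      exact Finset.sum_congr rfl fun i _ => Subtype.ext (hfix i i g)
    exact congrArg Subtype.val e
  -- the approximate statement
  have approx : ∀ (F : Finset G) (ε : ℝ), 0 < ε → ∃ (Z : Fin 2 → Fin 2 → D) (s : D),
      IsOrderZero Z ∧ (∀ i j, star (Z i j) = Z j i) ∧ (∀ i j g, sys.act g (Z i j) = Z i j) ∧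
      (∀ i j, ‖Z i j‖ ≤ 1) ∧ ‖s‖ ≤ 2 ∧ (∀ g ∈ F, ‖sys.act g s - s‖ ≤ ε) ∧
      (1 - supp Z) * s = 0 ∧ ‖star s * s - (1 - supp Z) * (1 - supp Z)‖ ≤ ε := by
    intro F ε hε
    obtain ⟨M, -, hM⟩ := hS G hG F ε hε
    let c : Copies ↥(gen sys.act S₀) D (Fin M) :=
      ⟨fun i => cc.hom i.1, fun i j h a b => cc.comm _ _ (fun e => h (Fin.ext e)) a b⟩
    obtain ⟨c₀, hc₀, hvan⟩ := Stage4.vanish c Eb hEb hsb (m := M) (δ := 1 / 5) (by norm_num)
    have good := fam_good c Eb hEb hsb
    set Gm := CombineN.fold (fam c Eb) M with hGm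
    set Hm := supp Gm with hHm
    have hHmsa : IsSelfAdjoint Hm := good.supp_fold_sa M
    set rg : ℝ → ℝ := ramp (c₀ / 2) c₀ with hrg
    set k : ℝ → ℝ := fun x => rg x / max x (c₀ / 2) with hk
    have ck : Continuous k := (continuous_ramp _ _).div (by fun_prop) fun x =>
      (lt_of_lt_of_le (half_pos hc₀) (le_max_right _ _)).ne'
    have hxk : ∀ x, x * k x = rg x := fun x => by
      rcases eq_or_ne (rg x) 0 with h0 | h0
      · simp [hk, h0]
      · have hx : c₀ / 2 < x := Stage4.lt_of_ramp_ne_zero (by linarith) h0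
        have : x ≠ 0 := by linarith
        simp only [hk, max_eq_left hx.le]
        field_simp
    obtain ⟨hZ, hZs, hZsupp⟩ := rescale (good.fold_oz M) (good.fold_sa M) k
    set Z : Fin 2 → Fin 2 → D := fun i j => Gm i j * cfc k Hm with hZdef
    have hZr : supp Z = cfc rg Hm := by
      rw [hZdef, hZsupp]
      conv_rhs => rw [cfc_congr (fun x _ => (hxk x).symm)]
      rw [cfc_mul (fun x : ℝ => x) k Hm continuousOn_id ck.continuousOn, cfc_id' ℝ Hm]
    set C : D := 1 - supp Z with hC
    have hCc : C = cfc (fun x => 1 - rg x) Hm := by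
      rw [hC, hZr, cfc_sub (fun _ : ℝ => (1 : ℝ)) rg Hm continuousOn_const
        (continuous_ramp _ _).continuousOn, cfc_const_one ℝ Hm]
    have hCsa : IsSelfAdjoint C := hCc ▸ cfc_predicate _ _
    have hCn : ‖C‖ ≤ 1 := hCc ▸ norm_cfc_le zero_le_one fun t _ => abs_one_sub_ramp _ _ t
    have hGfix : ∀ a i j g, sys.act g (fam c Eb a i j) = fam c Eb a i j := fun a i j g => by
      unfold fam
      split_ifs with h
      · exact hccfix _ _ (fun g => hfix i j g) g
      · exact map_zero _
    have hfamF : ∀ a i j, fam c Eb a i j ∈ Finite.fixedAlg sys.act := hGfix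
    have hGmfix := fold_mem (Finite.fixedAlg sys.act) (fam c Eb) hfamF
    have hclf : IsClosed (Finite.fixedAlg sys.act : Set D) :=
      Finite.isClosed_fixed sys.act
    have hZfix : ∀ i j, Z i j ∈ Finite.fixedAlg sys.act := fun i j =>
      mul_mem (hGmfix M i j) (_root_.cfc_mem (hs := hclf) (𝕜' := ℂ) k
        (sum_mem fun i _ => hGmfix M i i))
    have hCfix : C ∈ Finite.fixedAlg sys.act :=
      sub_mem (one_mem _) (sum_mem fun i _ => hZfix i i)
    have hkill : ∀ (a : Fin M) (φ : ℝ → ℝ), Continuous φ → (∀ t, φ t ≠ 0 → 1 / 5 ≤ |t|) →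
        C * c.hom a (cfc φ H) = 0 ∧ c.hom a (cfc φ H) * C = 0 := by
      intro a φ hφ hsup
      have h1 : C * c.hom a (cfc φ H) = 0 := by
        rw [hCc]
        exact hvan a φ _ hφ hsup (continuous_const.sub (continuous_ramp _ _)) fun t ht => by
          rw [hrg, Stage4.ramp_of_ge (by linarith) ht, sub_self]
      refine ⟨h1, ?_⟩
      have := congrArg star h1
      rwa [star_mul, star_zero, hCsa.star_eq,
        ((cfc_predicate φ H : IsSelfAdjoint _).map (c.hom a)).star_eq] at this
    have habs : ∀ (a : Fin M) (x y : ℝ), x < y → 1 / 5 ≤ x →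
        c.hom a (cfc (fun t => 1 - ramp x y t) H) * C = C := fun a x y hxy hx => by
      rw [cfc_sub (fun _ : ℝ => (1 : ℝ)) (ramp x y) H continuousOn_const
        (continuous_ramp _ _).continuousOn, cfc_const_one ℝ H, map_sub, map_one, sub_mul, one_mul,
        (hkill a _ (continuous_ramp _ _) fun t ht => ?_).2, sub_zero]
      have := Stage4.lt_of_ramp_ne_zero hxy ht
      linarith [le_abs_self t]
    have hnorm : ∀ (a : Fin M) (f : ℝ → ℝ), (∀ t, |f t| ≤ 1) → ‖c.hom a (cfc f H)‖ ≤ 1 :=
      fun a f hf => (NonUnitalStarAlgHom.norm_apply_le (c.hom a) _).trans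
        (norm_cfc_le zero_le_one fun t _ => hf t)
    obtain ⟨s, hsn, hsF, hCs, -, hss⟩ := hM D sys.act sys.act_mul (fun a => c.hom a bl)
      (fun a => c.hom a ol) (fun a => c.hom a ph) (fun a => c.hom a vl) C
      (fun g a => ⟨hccfix _ _ (hHfix _ continuous_lowb) g, hccfix _ _ (hHfix _ continuous_lowo) g,
        hccfix _ _ (hHfix _ continuous_highp) g, hCfix g⟩) hCsa hCn
      (fun a => ⟨sab.map _, sao.map _, sap.map _, hnorm a _ fun t => abs_one_sub_ramp _ _ t,
        hnorm a _ fun t => abs_one_sub_ramp _ _ t, hnorm a _ fun t => abs_ramp _ _ t⟩)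
      (fun a => ⟨by rw [← map_star, ← map_mul, ← map_mul, r1], by rw [← map_mul, r2],
        by rw [← map_mul, r3], by rw [← map_mul, r4], by rw [← map_mul, r5, map_zero],
        habs a _ _ (by norm_num) le_rfl, habs a _ _ (by norm_num) (by norm_num),
        (hkill a _ continuous_highp fun t ht => by
          have := Stage4.lt_of_ramp_ne_zero (show (4 / 5 : ℝ) < 9 / 10 by norm_num) ht
          linarith [le_abs_self t]).2⟩)
      (fun a b hab g h x hx y hy => by
        have e : ∀ (a : Fin M) (z : D), z ∈ [c.hom a bl, c.hom a ol, c.hom a ph, c.hom a vl,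
            star (c.hom a vl)] → ∀ g, ∃ Y, sys.act g z = c.hom a Y := by
          intro a z hz g
          simp only [List.mem_cons, List.not_mem_nil, or_false] at hz
          rcases hz with rfl | rfl | rfl | rfl | rfl
          all_goals first
            | exact ⟨_, (hceq a.1 g _).symm⟩
            | exact ⟨genAct sys.act_mul S₀ g (star vl), by rw [← map_star]; exact (hceq a.1 g _).symm⟩
        obtain ⟨Y₁, h₁⟩ := e a x hx g
        obtain ⟨Y₂, h₂⟩ := e b y hy h
        rw [h₁, h₂]
        exact c.comm a b hab _ _)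
    refine ⟨Z, s, hZ, hZs, fun i j => hZfix i j, norm_entry_le hZ hZs ?_, hsn, hsF, hCs, hss⟩
    rw [hZr]
    exact norm_cfc_le zero_le_one fun t _ => abs_ramp _ _ t
  -- saturation
  let V' : Fin 2 → Fin 2 → Tm G D FoldIdx := fun i j => .var (Sum.inl (i, j))
  let σ : Tm G D FoldIdx := .add (V' 0 0) (V' 1 1)
  let co : Tm G D FoldIdx := Tm.sub (.cst 1) σ
  let rel : ((Fin 2 × Fin 2) × Fin 2 × Fin 2) ⊕ (Fin 2 × Fin 2) ⊕ (G × FoldIdx) ⊕ Bool →
      Tm G D FoldIdx := fun q => match q with
    | .inl ((i, j), k, l) =>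
        Tm.sub (.mul (V' i j) (V' k l)) (if j = k then .mul σ (V' i l) else .cst 0)
    | .inr (.inl (i, j)) => Tm.sub (.adj (V' i j)) (V' j i)
    | .inr (.inr (.inl (g, a))) => Tm.sub (.app g (.var a)) (.var a)
    | .inr (.inr (.inr true)) => .mul co (.var (Sum.inr ()))
    | .inr (.inr (.inr false)) =>
        Tm.sub (.mul (.adj (.var (Sum.inr ()))) (.var (Sum.inr ()))) (.mul co co)
  obtain ⟨x, -, hx⟩ := sys.saturate' 2 rel fun s ε hε => by
    obtain ⟨Z, w, hZ, hZs, hZf, hZn, hwn, hwF, hCw, hww⟩ := approx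
      (s.biUnion fun q => match q with
        | .inr (.inr (.inl (g, _))) => {g}
        | _ => ∅) ε hε
    refine ⟨fun a => match a with
      | .inl (i, j) => Z i j
      | .inr _ => w, fun a => ?_, fun q hq => ?_⟩
    · rcases a with ⟨i, j⟩ | _
      · exact (hZn i j).trans one_le_two
      · exact hwn
    · have hσ : ∀ (F : FoldIdx → D), σ.eval sys.act F = F (Sum.inl (0, 0)) + F (Sum.inl (1, 1)) :=
        fun F => rfl
      have hsupp : supp Z = Z 0 0 + Z 1 1 := Fin.sum_univ_two _
      rcases q with ⟨⟨i, j⟩, k, l⟩ | ⟨i, j⟩ | ⟨g, a⟩ | _ | _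
      · simp only [rel, Tm.eval_sub]
        split_ifs with h <;> simp [Tm.eval, V', hσ, hZ.mul_eq, h, hsupp, hε.le]
      · simp [rel, Tm.eval_sub, Tm.eval, V', hZs, hε.le]
      · simp only [rel, Tm.eval_sub, Tm.eval]
        rcases a with ⟨i, j⟩ | _
        · simp [hZf, hε.le]
        · exact hwF g (Finset.mem_biUnion.2 ⟨_, hq, Finset.mem_singleton_self g⟩)
      · simpa [rel, Tm.eval_sub, Tm.eval, co, hσ, ← hsupp] using hww
      · simp [rel, Tm.eval_sub, Tm.eval, co, hσ, ← hsupp, hCw, hε.le]
  -- the characters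
  set Z : Fin 2 → Fin 2 → D := fun i j => x (Sum.inl (i, j)) with hZdef
  set w : D := x (Sum.inr ())
  have hsupp : supp Z = Z 0 0 + Z 1 1 := Fin.sum_univ_two _
  have hfx : ∀ a, x a ∈ Finite.fixedAlg sys.act := fun a g => by
    simpa [rel, Tm.eval_sub, Tm.eval, sub_eq_zero] using hx (.inr (.inr (.inl (g, a))))
  refine ⟨fun χ => ?_⟩
  let Zf : Fin 2 → Fin 2 → ↥(Finite.fixedAlg sys.act) := fun i j => ⟨Z i j, hfx _⟩
  let wf : ↥(Finite.fixedAlg sys.act) := ⟨w, hfx _⟩
  have hsuppf : supp Zf = Zf 0 0 + Zf 1 1 := Fin.sum_univ_two _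
  have hZf : IsOrderZero Zf := ⟨fun i j k l => by
    have := hx (.inl ((i, j), k, l))
    split_ifs with h
    · refine Subtype.ext ?_
      simpa [rel, Tm.eval_sub, Tm.eval, V', σ, if_pos h, sub_eq_zero, hsuppf, Zf, Z] using this
    · refine Subtype.ext ?_
      simpa [rel, Tm.eval_sub, Tm.eval, V', σ, if_neg h, sub_eq_zero, Zf, Z] using this⟩
  have h1 : (1 - supp Zf) * wf = 0 := Subtype.ext (by
    simpa [rel, Tm.eval_sub, Tm.eval, co, σ, V', hsuppf, Zf, wf, Z, w] using
      hx (.inr (.inr (.inr true))))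
  have h2 : star wf * wf = (1 - supp Zf) * (1 - supp Zf) := Subtype.ext (by
    simpa [rel, Tm.eval_sub, Tm.eval, co, σ, V', hsuppf, Zf, wf, Z, w, sub_eq_zero] using
      hx (.inr (.inr (.inr false))))
  have h3 := congrArg χ h1
  have h4 := congrArg χ h2
  simp only [map_mul, map_sub, map_one, map_zero, char_supp χ hZf, sub_zero, one_mul] at h3 h4
  rw [h3, mul_zero] at h4
  exact zero_ne_one h4

end Main

end Vale.Agent.P095.General
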