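import Vale.Agent.P095.General.Chain.Ideal
import Vale.Agent.P101.Stage2.Band

/-!
Chain, part 4: certificates of bounded length turn the approximate statements into finitely many
invariant self-adjoint elements whose commutators generate everything.
-/

noncomputable section

open Filter Topology

namespace Vale.Agent.P095.General

open Vale.Agent.P101
open Vale.Agent.P101.Stage4 (ramp continuous_ramp)

universe u v

section Cert

variable {D : Type u} [CStarAlgebra D]

lemma sqrt_smul_square {κ : ℝ} (hκ : 0 ≤ κ) (z : D) :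
    star (Real.sqrt κ • z) * (Real.sqrt κ • z) = κ • (star z * z) := by
  rw [star_smul, star_trivial, smul_mul_smul_comm, Real.mul_self_sqrt hκ]

/-- A certificate for a positive combination of two squares. -/
lemma exists_cert {δ B : ℝ} {N : ℕ}
    (hLen : ∀ y : D, ‖y‖ ≤ 1 → Full {cut δ (star y * y)} → (∀ Q : QT D, δ ≤ Q.sq y) →
      ∃ r : Fin N → D, (∀ i, ‖r i‖ ≤ B) ∧ ∑ i, star (y * r i) * (y * r i) = 1)
    {κ c : ℝ} (hκ : 0 ≤ κ) (hδ : δ < c) {x z a : D} (ha : Full ({a} : Set D))
    (hn : ‖κ • (star x * x) + κ • (star z * z)‖ ≤ 1)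
    (hlow : letI := CStarAlgebra.spectralOrder D;
      c • (star a * a) ≤ star a * (κ • (star z * z)) * a)
    (hQ : ∀ Q : QT D, δ ≤ κ * Q.sq x) :
    ∃ r : Fin N → D, (∀ i, ‖r i‖ ≤ B) ∧
      ∑ i, star (r i) * (κ • (star x * x) + κ • (star z * z)) * r i = 1 := by
  let := CStarAlgebra.spectralOrder D
  have := CStarAlgebra.spectralOrderedRing D
  set h := κ • (star x * x) + κ • (star z * z) with hh
  have e1 := sqrt_smul_square hκ x
  have e2 := sqrt_smul_square hκ z
  have hx0 : 0 ≤ κ • (star x * x) := e1 ▸ star_mul_self_nonneg _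
  have hz0 : 0 ≤ κ • (star z * z) := e2 ▸ star_mul_self_nonneg _
  have h0 : 0 ≤ h := add_nonneg hx0 hz0
  have hsa : IsSelfAdjoint h := IsSelfAdjoint.of_nonneg h0
  set y := cfc Real.sqrt h with hy
  have hyy : star y * y = h := by
    rw [hy, (cfc_predicate Real.sqrt h : IsSelfAdjoint _).star_eq,
      ← cfc_mul Real.sqrt Real.sqrt h Real.continuous_sqrt.continuousOn
        Real.continuous_sqrt.continuousOn]
    conv_rhs => rw [← cfc_id' ℝ h]
    exact cfc_congr fun t ht => Real.mul_self_sqrt (spectrum_nonneg_of_nonneg h0 ht)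
  have hyn : ‖y‖ ≤ 1 := Stage4.norm_self_le zero_le_one (by rwa [one_mul, hyy])
  have hfull : Full {cut δ (star y * y)} := by
    rw [hyy]
    refine full_cut_of_le hsa (hlow.trans ?_) hδ ha
    exact star_left_conjugate_le_conjugate (le_add_of_nonneg_left hx0) a
  obtain ⟨r, hrB, hr⟩ := hLen y hyn hfull fun Q => by
    refine (hQ Q).trans ?_
    show κ * Q.q (star x * x) ≤ Q.q (star y * y)
    rw [← Q.smul κ x hκ, hyy, hh, ← e1, ← e2]
    exact Q.mono _ _
  refine ⟨r, hrB, ?_⟩
  rw [← hr]
  refine Finset.sum_congr rfl fun i _ => ?_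
  rw [← hyy, star_mul]
  simp only [mul_assoc]

end Cert

lemma smul_mem_ideal {D : Type u} [CStarAlgebra D] (J : TwoSidedIdeal D) (z : ℂ) {x : D}
    (h : x ∈ J) : z • x ∈ J := by
  rw [← one_mul x, ← smul_mul_assoc]
  exact J.mul_mem_left _ _ h

section Witness

/-- The grid ramps. -/
def gridR (s : ℝ) (j : ℕ) (t : ℝ) : ℝ := ramp (-1 + ((j : ℝ) - 1) * s) (-1 + j * s) t

/-- The partition of the interval along the grid. -/
def gridφ (s : ℝ) (j : ℕ) (t : ℝ) : ℝ := gridR s j t - gridR s (j + 1) t

lemma continuous_gridφ (s : ℝ) (j : ℕ) : Continuous (gridφ s j) :=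
  (continuous_ramp _ _).sub (continuous_ramp _ _)

lemma gridφ_sum {s : ℝ} {K : ℕ} (hs : 0 < s) (hK : (K : ℝ) * s = 2) {t : ℝ} (ht : |t| ≤ 1) :
    ∑ j ∈ Finset.range (K + 1), gridφ s j t = 1 := by
  obtain ⟨h1, h2⟩ := abs_le.1 ht
  simp only [gridφ]
  rw [Finset.sum_range_sub' (fun j => gridR s j t) (K + 1), gridR, gridR,
    Stage4.ramp_of_ge (by simp; linarith) (by simp; linarith),
    Stage4.ramp_of_le (by push_cast; linarith) (by push_cast; linarith)]
  norm_num

lemma gridφ_bound {s : ℝ} (hs : 0 < s) (j : ℕ) (t : ℝ) :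
    |gridφ s j t * ((t - (-1 + j * s)) * (t - (-1 + j * s)))| ≤ s * s := by
  rcases le_or_gt t (-1 + ((j : ℝ) - 1) * s) with h | h
  · rw [gridφ, gridR, gridR, Stage4.ramp_of_le (by linarith) h,
      Stage4.ramp_of_le (by push_cast; linarith) (by push_cast; linarith)]
    simp [mul_self_nonneg]
  rcases le_or_gt (-1 + ((j : ℝ) + 1) * s) t with h' | h'
  · rw [gridφ, gridR, gridR, Stage4.ramp_of_ge (by linarith) (by linarith),
      Stage4.ramp_of_ge (by push_cast; linarith) (by push_cast; linarith)]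
    simp [mul_self_nonneg]
  rw [abs_mul, abs_mul_self]
  refine (mul_le_of_le_one_left (mul_self_nonneg _) ?_).trans ?_
  · have r0 := Stage4.ramp_nonneg
    have r1 := Stage4.ramp_le_one
    rw [abs_le, gridφ, gridR, gridR]
    constructor <;> linarith [r0 (-1 + ((j : ℝ) - 1) * s) (-1 + j * s) t,
      r1 (-1 + ((j : ℝ) - 1) * s) (-1 + j * s) t,
      r0 (-1 + (((j + 1 : ℕ) : ℝ) - 1) * s) (-1 + (j + 1 : ℕ) * s) t,
      r1 (-1 + (((j + 1 : ℕ) : ℝ) - 1) * s) (-1 + (j + 1 : ℕ) * s) t]
  · nlinarith

variable {G : Type v} [Group G] [Countable G] {D : Type u} [CStarAlgebra D] (sys : Sys G D)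

/-- Invariant self-adjoint elements with full commutators. -/
theorem exists_witness_fixed (hSp : SpreadStatement.{u, v}) (hP : PairStatement.{u, v})
    (hL : LengthStatement.{u, v}) (hG : Folner G) :
    ∃ b : Fin 3 → D, (∀ l, IsSelfAdjoint (b l)) ∧ (∀ l, b l ∈ Finite.fixedAlg sys.act) ∧
      Full {x | ∃ l d, b l * d - d * b l = x} := by
  classical
  let := CStarAlgebra.spectralOrder D
  have := CStarAlgebra.spectralOrderedRing D
  obtain ⟨c, hc, hT⟩ := hSp
  obtain ⟨δp, hδp, hx⟩ := hP
  set δ := min (c / 16) (δp / 8) with hδdef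
  have hδ : 0 < δ := lt_min (by positivity) (by positivity)
  obtain ⟨N, B, hlen⟩ := hL δ hδ
  set R := max 1 B with hR
  have hR1 : 1 ≤ R := le_max_left _ _
  have hR0 : 0 < R := by linarith
  obtain ⟨K, hK⟩ := exists_nat_gt ((N : ℝ) * R ^ 2)
  have hK0 : (0 : ℝ) < K := lt_of_le_of_lt (by positivity) hK
  set s : ℝ := 2 / K with hs
  have hs0 : 0 < s := by positivity
  have hsK : (K : ℝ) * s = 2 := by rw [hs]; field_simp
  set t : Fin (K + 1) → ℝ := fun k => -1 + (k : ℕ) * s with ht
  have htabs : ∀ k, |t k| ≤ 1 := fun k => by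
    have hk : ((k : ℕ) : ℝ) ≤ K := by exact_mod_cast Nat.lt_succ_iff.1 k.isLt
    have := mul_le_mul_of_nonneg_right hk hs0.le
    have : 0 ≤ ((k : ℕ) : ℝ) * s := by positivity
    rw [ht, abs_le]
    constructor <;> simp only <;> linarith
  let tT : Tm G D (Bool ⊕ (Fin (K + 1) × Fin N)) := .var (Sum.inl true)
  let tx : Tm G D (Bool ⊕ (Fin (K + 1) × Fin N)) := .var (Sum.inl false)
  let tz : Fin (K + 1) → Tm G D (Bool ⊕ (Fin (K + 1) × Fin N)) := fun k =>
    Tm.sub tT (.cst (algebraMap ℝ D (t k)))
  let th : Fin (K + 1) → Tm G D (Bool ⊕ (Fin (K + 1) × Fin N)) := fun k =>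
    .smul ((R * R / 8 : ℝ) : ℂ) (.add (.mul (.adj tx) tx) (.mul (.adj (tz k)) (tz k)))
  let tr : Fin (K + 1) → Fin N → Tm G D (Bool ⊕ (Fin (K + 1) × Fin N)) := fun k i =>
    .var (Sum.inr (k, i))
  let rel : Bool ⊕ (G × Bool) ⊕ Fin (K + 1) → Tm G D (Bool ⊕ (Fin (K + 1) × Fin N)) :=
    fun q => match q with
    | .inl true => Tm.sub (.adj tT) tT
    | .inl false => .mul tx tx
    | .inr (.inl (g, a)) => Tm.sub (.app g (.var (Sum.inl a))) (.var (Sum.inl a))
    | .inr (.inr k) => Tm.sub
        (Tm.sum (Finset.univ.toList.map fun i => .mul (.mul (.adj (tr k i)) (th k)) (tr k i)))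
        (.cst 1)
  have evsum : ∀ (y : Bool ⊕ (Fin (K + 1) × Fin N) → D) k,
      (rel (.inr (.inr k))).eval sys.act y
        = (∑ i, star (y (.inr (k, i))) * ((R * R / 8) • (star (y (.inl false)) * y (.inl false))
          + (R * R / 8) • (star (y (.inl true) - algebraMap ℝ D (t k))
            * (y (.inl true) - algebraMap ℝ D (t k)))) * y (.inr (k, i))) - 1 := by
    intro y k
    simp only [rel, Tm.eval_sub, Tm.eval_sum_univ, Tm.eval, th, tz, tr, tx, tT, Complex.coe_smul,
      smul_add]
  obtain ⟨y, hyB, hy⟩ := sys.saturate' 1 rel fun S ε hε => by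
    set E : Finset G := S.biUnion fun q => match q with
      | .inr (.inl (g, _)) => {g}
      | _ => ∅ with hE
    obtain ⟨T, hTs, hTn, hTE, hTfull⟩ := hT G hG D sys E ε hε
    obtain ⟨x, hxn, hxx, hxE, hxQ⟩ := hx G hG D sys E ε hε
    have hcert : ∀ k, ∃ r : Fin N → D, (∀ i, ‖r i‖ ≤ B) ∧
        ∑ i, star (r i) * ((1 / 8 : ℝ) • (star x * x) + (1 / 8 : ℝ) •
          (star (T - algebraMap ℝ D (t k)) * (T - algebraMap ℝ D (t k)))) * r i = 1 := by
      intro k
      set z := T - algebraMap ℝ D (t k) with hz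
      have hzs : IsSelfAdjoint z := hTs.sub ((IsSelfAdjoint.all (t k)).algebraMap D)
      have hzn : ‖z‖ ≤ 2 := by
        refine (norm_sub_le _ _).trans ?_
        rw [Algebra.algebraMap_eq_smul_one, norm_smul, Real.norm_eq_abs]
        have := (mul_le_of_le_one_right (abs_nonneg (t k))
          (Stage2.norm_one_le (B := D))).trans (htabs k)
        linarith
      refine exists_cert (fun y => hlen G D sys y) (c := c / 8) (by norm_num)
        (lt_of_le_of_lt (min_le_left _ _) (by linarith)) (hTfull (t k)) ?_ ?_ fun Q => ?_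
      · refine (norm_add_le _ _).trans ?_
        rw [norm_smul, norm_smul, CStarRing.norm_star_mul_self, CStarRing.norm_star_mul_self,
          Real.norm_eq_abs, abs_of_nonneg (by norm_num : (0 : ℝ) ≤ 1 / 8)]
        nlinarith [norm_nonneg x, norm_nonneg z]
      · have hw : IsSelfAdjoint (z * z) := (hzs.commute_iff hzs).1 (Commute.refl z)
        set m : ℝ → ℝ := fun s => max (s - c) 0 with hm
        have cm : Continuous m := by fun_prop
        have e : c • (star (cut c (z * z)) * cut c (z * z))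
            ≤ star (cut c (z * z)) * (star z * z) * cut c (z * z) := by
          rw [hzs.star_eq, show cut c (z * z) = cfc m (z * z) from rfl,
            (cfc_predicate m (z * z) : IsSelfAdjoint _).star_eq]
          conv_rhs => arg 1; arg 2; rw [← cfc_id' ℝ (z * z)]
          rw [← cfc_mul m (fun s : ℝ => s) _ cm.continuousOn continuousOn_id,
            ← cfc_mul m m _ cm.continuousOn cm.continuousOn,
            ← cfc_mul (fun s => m s * s) m _ (cm.mul continuous_id).continuousOn cm.continuousOn,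
            ← cfc_smul c (fun s => m s * m s) _ (cm.mul cm).continuousOn]
          refine cfc_mono fun s _ => ?_
          rcases le_total s c with h | h
          · simp [hm, max_eq_right (sub_nonpos.2 h)]
          · simp only [hm, max_eq_left (sub_nonneg.2 h), smul_eq_mul]
            nlinarith [mul_nonneg (mul_nonneg (sub_nonneg.2 h) (sub_nonneg.2 h)) (sub_nonneg.2 h)]
        calc (c / 8) • (star (cut c (z * z)) * cut c (z * z))
            = (1 / 8 : ℝ) • (c • (star (cut c (z * z)) * cut c (z * z))) := by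
              rw [smul_smul]; ring_nf
          _ ≤ _ := by
              rw [mul_smul_comm, smul_mul_assoc]
              exact smul_le_smul_of_nonneg_left e (by norm_num)
      · linarith [hxQ Q, min_le_right (c / 16) (δp / 8)]
    choose r hrB hr using hcert
    refine ⟨fun a => match a with
      | .inl true => T
      | .inl false => x
      | .inr (k, i) => R⁻¹ • r k i, fun a => ?_, fun q hq => ?_⟩
    · rcases a with (_ | _) | ⟨k, i⟩
      · exact hxn
      · exact hTn
      · rw [norm_smul, norm_inv, Real.norm_eq_abs, abs_of_pos hR0, inv_mul_le_one₀ hR0]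
        exact (hrB k i).trans (le_max_right _ _)
    · rcases q with (_ | _) | ⟨g, a⟩ | k
      · simp [rel, Tm.eval, tx, hxx, hε.le]
      · simp [rel, Tm.eval_sub, Tm.eval, tT, hTs.star_eq, hε.le]
      · have hg : g ∈ E := Finset.mem_biUnion.2 ⟨_, hq, Finset.mem_singleton_self g⟩
        rcases a with _ | _
        · simpa [rel, Tm.eval_sub, Tm.eval] using hxE g hg
        · simpa [rel, Tm.eval_sub, Tm.eval] using hTE g hg
      · rw [evsum]
        refine le_of_eq_of_le (norm_eq_zero.2 (sub_eq_zero.2 ((Finset.sum_congr rfl fun i _ => ?_).trans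
          (hr k)))) hε.le
        simp only [← smul_add, star_smul, star_trivial, smul_mul_assoc, mul_smul_comm, smul_smul]
        congr 1
        field_simp
  set T := y (.inl true) with hTdef
  set x := y (.inl false) with hxdef
  have hTs : IsSelfAdjoint T := by
    rw [IsSelfAdjoint]
    simpa [rel, Tm.eval_sub, Tm.eval, tT, sub_eq_zero] using hy (.inl true)
  have hTn : ‖T‖ ≤ 1 := hyB _
  have hxx : x * x = 0 := by simpa [rel, Tm.eval, tx] using hy (.inl false)
  have hfix : ∀ a, y (.inl a) ∈ Finite.fixedAlg sys.act := fun a g => by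
    simpa [rel, Tm.eval_sub, Tm.eval, sub_eq_zero] using hy (.inr (.inl (g, a)))
  set b : Fin 3 → D := ![T, x + star x, Complex.I • (x - star x)] with hb
  refine ⟨b, fun l => ?_, fun l => ?_, ?_⟩
  · fin_cases l
    · exact hTs
    · exact IsSelfAdjoint.add_star_self x
    · simp [b, IsSelfAdjoint, star_smul, Complex.conj_I, ← smul_neg]
  · fin_cases l
    · exact hfix true
    · exact add_mem (hfix false) (star_mem (hfix false))
    · exact SMulMemClass.smul_mem _ (sub_mem (hfix false) (star_mem (hfix false)))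
  show (1 : D) ∈ TwoSidedIdeal.span _
  set J := TwoSidedIdeal.span {w : D | ∃ l d, b l * d - d * b l = w}
  have hbd : ∀ l d, b l * d - d * b l ∈ J := fun l d => TwoSidedIdeal.subset_span ⟨l, d, rfl⟩
  have hTc : ∀ d, T * d - d * T ∈ cl J := fun d => le_cl (hbd 0 d)
  have hxJ : x ∈ cl J := by
    have e : x * star x - star x * x = (2 : ℂ)⁻¹ • ((b 1 * star x - star x * b 1)
        - Complex.I • (b 2 * star x - star x * b 2)) := by
      simp only [b, Matrix.cons_val_one, Matrix.cons_val_two, Matrix.cons_val_zero,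
        Matrix.tail_cons, Matrix.head_cons, smul_mul_assoc, mul_smul_comm, smul_sub, smul_smul,
        mul_sub, sub_mul, add_mul, mul_add, mul_assoc, Complex.I_mul_I, neg_smul, one_smul,
        smul_add, smul_neg]
      module
    have hm : x * star x - star x * x ∈ J := by
      rw [e]
      exact smul_mem_ideal J _ (J.sub_mem (hbd 1 _) (smul_mem_ideal J _ (hbd 2 _)))
    refine mem_cl_of_sq (mem_cl_of_sq ?_)
    have e2 : star (star x * x) * (star x * x) = star x * (x * star x - star x * x) * x
        + star x * star x * (x * x) := by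
      rw [star_mul, star_star]; noncomm_ring
    rw [e2, hxx, mul_zero, add_zero]
    exact le_cl (J.mul_mem_right _ _ (J.mul_mem_left _ _ hm))
  have hφc : ∀ (k : Fin (K + 1)) d,
      cfc (gridφ s k) T * d - d * cfc (gridφ s k) T ∈ cl J := fun k d =>
    cfc_central hTs hTc (continuous_gridφ s k) d
  set P : Fin (K + 1) → Fin N → D := fun k i => star (y (.inr (k, i))) *
    cfc (fun τ => gridφ s k τ * ((τ - t k) * (τ - t k))) T * ((R * R / 8) • y (.inr (k, i)))
    with hP'
  have hTspec : ∀ τ ∈ spectrum ℝ T, |τ| ≤ 1 := fun τ hτ =>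
    (Stage2.abs_le_of_mem_spectrum hτ).trans hTn
  refine one_mem_of_cl (one_mem_of_near (z := (∑ k : Fin (K + 1), cfc (gridφ s k) T) - ∑ k, ∑ i, P k i) ?_ ?_)
  · rw [← Finset.sum_sub_distrib]
    refine sum_mem fun k _ => ?_
    have h1 := hy (.inr (.inr k))
    rw [evsum, sub_eq_zero] at h1
    set φT := cfc (gridφ s k) T
    have hw : cfc (fun τ => gridφ s k τ * ((τ - t k) * (τ - t k))) T
        = φT * (star (T - algebraMap ℝ D (t k)) * (T - algebraMap ℝ D (t k))) := by
      rw [(hTs.sub ((IsSelfAdjoint.all (t k)).algebraMap D)).star_eq,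
        cfc_mul (gridφ s k) (fun τ => (τ - t k) * (τ - t k)) T (continuous_gridφ s k).continuousOn
          (by fun_prop), cfc_mul (fun τ => τ - t k) (fun τ => τ - t k) T,
        cfc_sub (fun τ : ℝ => τ) (fun _ => t k) T, cfc_id' ℝ T, cfc_const (t k) T]
    conv => arg 2; arg 1; rw [← mul_one φT, ← h1]
    rw [Finset.mul_sum, ← Finset.sum_sub_distrib]
    refine sum_mem fun i _ => ?_
    set w := star (T - algebraMap ℝ D (t k)) * (T - algebraMap ℝ D (t k))
    set r := y (.inr (k, i)) with hrdef
    have e : φT * (star r * ((R * R / 8) • (star x * x) + (R * R / 8) • w) * r) - P k i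
        = (φT * star r - star r * φT) * (((R * R / 8) • (star x * x) + (R * R / 8) • w) * r)
          + star r * φT * star x * (x * ((R * R / 8) • r)) := by
      rw [hP']
      simp only [hw, ← hrdef]
      simp only [sub_mul, mul_add, add_mul, mul_assoc, smul_mul_assoc, mul_smul_comm]
      module
    rw [e]
    exact (cl J).add_mem ((cl J).mul_mem_right _ _ (hφc k _))
      ((cl J).mul_mem_left _ _ ((cl J).mul_mem_right _ _ hxJ))
  · have hone : ∑ k : Fin (K + 1), cfc (gridφ s k) T = 1 := by
      rw [← cfc_sum (fun k : Fin (K + 1) => gridφ s k) T Finset.univ fun k _ =>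
        (continuous_gridφ s k).continuousOn, ← cfc_const_one ℝ T]
      refine cfc_congr fun τ hτ => ?_
      simp only [Finset.sum_apply]
      rw [Fin.sum_univ_eq_sum_range fun j => gridφ s j τ]
      exact gridφ_sum hs0 hsK (hTspec τ hτ)
    rw [hone, sub_sub_cancel]
    have hb1 : ∀ k i, ‖P k i‖ ≤ 1 * (s * s) * (R * R / 8 * 1) := fun k i => by
      have hr : ‖y (.inr (k, i))‖ ≤ 1 := hyB _
      have : 0 ≤ s * s := mul_self_nonneg s
      rw [hP']
      refine (norm_mul₃_le ..).trans ?_
      rw [norm_star, norm_smul, Real.norm_eq_abs, abs_of_nonneg (by positivity : (0 : ℝ) ≤ R * R / 8)]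
      gcongr
      · exact norm_cfc_le (by positivity) fun τ _ => gridφ_bound hs0 k τ
    calc ‖∑ k, ∑ i, P k i‖ ≤ ∑ _k : Fin (K + 1), ∑ _i : Fin N, 1 * (s * s) * (R * R / 8 * 1) :=
          (norm_sum_le _ _).trans (Finset.sum_le_sum fun k _ =>
            (norm_sum_le _ _).trans (Finset.sum_le_sum fun i _ => hb1 k i))
      _ < 1 := by
        simp only [Finset.sum_const, Finset.card_univ, Fintype.card_fin, nsmul_eq_mul]
        push_cast
        rw [hs]
        have hN : 0 ≤ (N : ℝ) * R ^ 2 := by positivity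
        have hK1 : (1 : ℝ) ≤ K := by exact_mod_cast Nat.one_le_iff_ne_zero.2 fun e => by simp [e] at hK0
        field_simp
        nlinarith [mul_nonneg hN (sub_nonneg.2 hK1), mul_lt_mul_of_pos_left hK hK0]

end Witness

end Vale.Agent.P095.General
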