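import Vale.Agent.P095.General.Chain.Frames
import Vale.Agent.P095.General.Chain.Witness
import Vale.Agent.P101.Stage4

/-!
Chain, part 5: an invariant frame, sectors and square-zero elements large in every quasitracial
state give an invariant full two by two family of order zero.
-/

noncomputable section

open Filter Topology

namespace Vale.Agent.P095.General

open Vale.Agent.P101
open Vale.Agent.P101.CombineN (IsOrderZero supp)

universe u v

section Local

variable {D : Type u} [CStarAlgebra D]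

/-- The family of a square-zero element lies in every closed subalgebra containing it. -/
lemma ofNil_mem (F : StarSubalgebra ℂ D) (hF : IsClosed (F : Set D)) {x : D} (hx : x ∈ F)
    (i j : Fin 2) : Stage4.ofNil x i j ∈ F := by
  have hw : Stage4.weight x ∈ F := _root_.cfc_mem (hs := hF) (𝕜' := ℂ) Real.sqrt
    (add_mem (mul_mem hx (star_mem hx)) (mul_mem (star_mem hx) hx))
  fin_cases i <;> fin_cases j <;> simp [Stage4.ofNil] <;>
    first
      | exact mul_mem hx (star_mem hx)
      | exact mul_mem hw hx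
      | exact mul_mem hw (star_mem hx)
      | exact mul_mem (star_mem hx) hx

/-- Families of commuting square-zero elements commute. -/
lemma ofNil_commute {s x : D} (h : Commute s x) (h' : Commute s (star x)) (i j k l : Fin 2) :
    Commute (Stage4.ofNil s i j) (Stage4.ofNil x k l) := by
  have hcl : ∀ X : Set D, IsClosed (StarSubalgebra.centralizer ℂ X : Set D) := fun X => by
    rw [StarSubalgebra.coe_centralizer]
    exact Set.isClosed_centralizer _
  have hs : s ∈ StarSubalgebra.centralizer ℂ ({x} : Set D) := by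
    rw [StarSubalgebra.mem_centralizer_iff]
    rintro y rfl
    exact ⟨h.eq.symm, h'.eq.symm⟩
  have hs' : ∀ a b, Commute (Stage4.ofNil s a b) x ∧ Commute (star (Stage4.ofNil s a b)) x :=
    fun a b => by
      have hm := ofNil_mem _ (hcl _) hs a b
      exact ⟨(((StarSubalgebra.mem_centralizer_iff ℂ).1 hm x rfl).1).symm,
        (((StarSubalgebra.mem_centralizer_iff ℂ).1 (star_mem hm) x rfl).1).symm⟩
  have hx : x ∈ StarSubalgebra.centralizer ℂ
      (Set.range fun a : Fin 2 × Fin 2 => Stage4.ofNil s a.1 a.2) := by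
    rw [StarSubalgebra.mem_centralizer_iff]
    rintro y ⟨⟨a, b⟩, rfl⟩
    exact ⟨(hs' a b).1.eq, (hs' a b).2.eq⟩
  exact ((StarSubalgebra.mem_centralizer_iff ℂ).1 (ofNil_mem _ (hcl _) hx k l) _ ⟨(i, j), rfl⟩).1

/-- The combination stays inside a subalgebra containing the families. -/
lemma combine_mem {n : ℕ} (F : StarSubalgebra ℂ D) {A B : Fin n → Fin n → D}
    (hA : ∀ i j, A i j ∈ F) (hB : ∀ i j, B i j ∈ F) (i j : Fin n) :
    CombineN.combine A B i j ∈ F := by
  simp only [CombineN.combine, CombineN.comb, CombineN.left, CombineN.right, supp]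
  repeat' first
    | apply add_mem
    | apply sub_mem
    | apply mul_mem
    | apply SMulMemClass.smul_mem
    | apply pow_mem
    | (apply sum_mem; intro _ _)
    | exact hA _ _
    | exact hB _ _

/-- The ideal of the first corner contains the support. -/
lemma supp_mem_cl {F : Fin 2 → Fin 2 → D} (hF : IsOrderZero F)
    (hs : ∀ i j, star (F i j) = F j i) : supp F ∈ cl (TwoSidedIdeal.span {F 0 0}) := by
  set J := cl (TwoSidedIdeal.span {F 0 0})
  have h00 : F 0 0 ∈ J := le_cl (TwoSidedIdeal.subset_span rfl)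
  have h10 : F 1 0 ∈ J := mem_cl_of_sq (by
    rw [hs, hF.mul_eq, if_pos rfl]
    exact J.mul_mem_left _ _ h00)
  have h01 : F 0 1 ∈ J := mem_cl_of_sq (by
    rw [hs]
    exact J.mul_mem_right _ _ h10)
  have h11 : F 1 1 ∈ J := mem_cl_of_sq (by
    have e := hF.mul_eq 1 0 0 1
    rw [if_pos rfl] at e
    rw [hs, hF.mul_eq, if_pos rfl, ← e]
    exact J.mul_mem_left _ _ h01)
  rw [supp, Fin.sum_univ_two]
  exact J.add_mem h00 h11

/-- If the support of the combination is in a closed ideal, so are the elements. -/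
lemma mem_cl_of_combine {J : TwoSidedIdeal D} {s x : D}
    (h : supp (CombineN.combine (Stage4.ofNil s) (Stage4.ofNil x)) ∈ cl J) :
    s ∈ cl J ∧ x ∈ cl J := by
  let := CStarAlgebra.spectralOrder D
  have := CStarAlgebra.spectralOrderedRing D
  rw [CombineN.supp_combine, Stage4.supp_ofNil, Stage4.supp_ofNil] at h
  have key : ∀ p q : D, p ∈ ({s, x} : Set D) → q ∈ ({s, x} : Set D) →
      (p * star p + star p * p) ^ 4 + (q * star q + star q * q) ^ 4 ∈ cl J → p ∈ cl J := by
    intro p q _ _ hpq
    set P := p * star p + star p * p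
    set Q := q * star q + star q * q
    have hP : IsSelfAdjoint P :=
      (IsSelfAdjoint.mul_star_self p).add (IsSelfAdjoint.star_mul_self p)
    have hQ : IsSelfAdjoint Q :=
      (IsSelfAdjoint.mul_star_self q).add (IsSelfAdjoint.star_mul_self q)
    have e : ∀ R : D, IsSelfAdjoint R → R ^ 4 = star (R * R) * (R * R) := fun R hR => by
      rw [star_mul, hR.star_eq]; noncomm_ring
    have h2 : P * P ∈ cl J := mem_cl_of_le (show star (P * P) * (P * P) ≤ P ^ 4 + Q ^ 4 by
      rw [← e P hP]
      exact le_add_of_nonneg_right (e Q hQ ▸ star_mul_self_nonneg _)) hpq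
    have h1 : P ∈ cl J := mem_cl_of_sq (by rw [hP.star_eq]; exact h2)
    exact mem_cl_of_le (le_add_of_nonneg_left (mul_star_self_nonneg p)) h1
  exact ⟨key s x (by simp) (by simp) h, key x s (by simp) (by simp) (by rwa [add_comm])⟩

end Local

section Main

variable {G : Type v} [Group G] [Countable G] {D : Type u} [CStarAlgebra D] (sys : Sys G D)

/-- Invariant frames give an invariant full two by two family of order zero. -/
theorem exists_family_fixed (hP : PairStatement.{u, v}) (hL : LengthStatement.{u, v})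
    (hS : SectorStatement.{u, v}) (hG : Folner G) (F : Frame sys) :
    ∃ E : Fin 2 → Fin 2 → D, IsOrderZero E ∧ (∀ i j, star (E i j) = E j i) ∧
      (∀ i j, E i j ∈ Finite.fixedAlg sys.act) ∧ Full ({E 0 0} : Set D) := by
  classical
  let := CStarAlgebra.spectralOrder D
  have := CStarAlgebra.spectralOrderedRing D
  obtain ⟨δp, hδp, hxP⟩ := hP
  set δ := min (1 / 32) (δp / 2) with hδdef
  have hδ : 0 < δ := lt_min (by norm_num) (by positivity)
  obtain ⟨N, B, hlen⟩ := hL δ hδ
  obtain ⟨n, pa, xa, qa, hxa, h1a⟩ := full_exists_sum F.full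
  set S₁ : Set D := {F.b, F.o, F.p, F.v, F.C, F.a} ∪ Set.range pa ∪ Set.range qa with hS₁
  have hS₁c : S₁.Countable :=
    ((Set.toFinite _).countable.union (Set.countable_range _)).union (Set.countable_range _)
  obtain ⟨cc, hceq, -, hccfix⟩ := sys.exists_copies S₁ hS₁c
  let b₁ : ↥(gen sys.act S₁) := ⟨F.b, subset_gen (by simp [hS₁])⟩
  let o₁ : ↥(gen sys.act S₁) := ⟨F.o, subset_gen (by simp [hS₁])⟩
  let p₁ : ↥(gen sys.act S₁) := ⟨F.p, subset_gen (by simp [hS₁])⟩
  let v₁ : ↥(gen sys.act S₁) := ⟨F.v, subset_gen (by simp [hS₁])⟩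
  let C₁ : ↥(gen sys.act S₁) := ⟨F.C, subset_gen (by simp [hS₁])⟩
  let a₁ : ↥(gen sys.act S₁) := ⟨F.a, subset_gen (by simp [hS₁])⟩
  have sub : ∀ {x x' : ↥(gen sys.act S₁)}, (x : D) = x' → x = x' := fun h => Subtype.ext h
  have ha₁ : Full ({a₁} : Set ↥(gen sys.act S₁)) := by
    show (1 : ↥(gen sys.act S₁)) ∈ TwoSidedIdeal.span {a₁}
    let P' : Fin n → ↥(gen sys.act S₁) := fun i => ⟨pa i, subset_gen (Or.inl (Or.inr ⟨i, rfl⟩))⟩
    let Q' : Fin n → ↥(gen sys.act S₁) := fun i => ⟨qa i, subset_gen (Or.inr ⟨i, rfl⟩)⟩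
    have e : ∑ i, P' i * a₁ * Q' i = 1 := sub (by
      rw [show ((∑ i, P' i * a₁ * Q' i : ↥(gen sys.act S₁)) : D) = ∑ i, pa i * F.a * qa i from
        map_sum (gen sys.act S₁).subtype _ Finset.univ]
      exact (Finset.sum_congr rfl fun i _ => by rw [show xa i = F.a from hxa i]).trans h1a)
    rw [← e]
    exact sum_mem fun i _ => TwoSidedIdeal.mul_mem_right _ _ _
      (TwoSidedIdeal.mul_mem_left _ _ _ (TwoSidedIdeal.subset_span rfl))
  have approx : ∀ (E : Finset G) (ε : ℝ), 0 < ε → ∃ (s x : D) (r : Fin N → D),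
      ‖s‖ ≤ 1 ∧ ‖x‖ ≤ 1 ∧ (∀ i, ‖r i‖ ≤ B) ∧ s * s = 0 ∧ x * x = 0 ∧ Commute s x ∧
      Commute s (star x) ∧ (∀ g ∈ E, ‖sys.act g s - s‖ ≤ ε ∧ ‖sys.act g x - x‖ ≤ ε) ∧
      ∑ i, star (r i) * ((1 / 2 : ℝ) • (star x * x) + (1 / 2 : ℝ) • (star s * s)) * r i = 1 := by
    intro E ε hε
    set ε' := min ε (1 / 2) with hε'
    obtain ⟨M, -, hM⟩ := hS G hG E ε' (lt_min hε (by norm_num))
    let c : Copies ↥(gen sys.act S₁) D (Fin M) :=
      ⟨fun i => cc.hom i.1, fun i j h a b => cc.comm _ _ (fun e => h (Fin.ext e)) a b⟩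
    set C := c.prod Finset.univ fun _ => C₁ with hCdef
    set a := c.prod Finset.univ fun _ => a₁ with hadef
    have hCsa : IsSelfAdjoint C := by
      rw [hCdef, IsSelfAdjoint, star_prod]
      exact c.prod_congr fun i _ => sub F.sa.2.2.2.star_eq
    have hCfix : ∀ g, sys.act g C = C := fun g =>
      prod_fixed c _ _ (fun i g => hccfix i.1 C₁ (fun g => (F.fixed g).2.2.2) g) g
    have hmulC : ∀ (k : Fin M) (y : ↥(gen sys.act S₁)),
        c.hom k y * C = c.hom k (y * C₁) * c.prod (Finset.univ.erase k) fun _ => C₁ := fun k y => by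
      rw [hCdef, ← Finset.insert_erase (Finset.mem_univ k),
        c.prod_insert (Finset.notMem_erase k _), ← mul_assoc, ← map_mul, Finset.erase_insert
          (Finset.notMem_erase k _)]
    have hC1 : ∀ k : Fin M, c.hom k C₁ * (c.prod (Finset.univ.erase k) fun _ => C₁) = C :=
      fun k => by
        rw [hCdef]
        conv_rhs => rw [← Finset.insert_erase (Finset.mem_univ k)]
        rw [c.prod_insert (Finset.notMem_erase k _)]
    have hoC : F.o * F.C = F.C := by rw [← F.bC, ← mul_assoc, F.ob]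
    have hpC : F.p * F.C = 0 := by
      have hpo : F.p * F.o = 0 := by
        have := congrArg star F.op
        rwa [star_mul, star_zero, F.sa.2.1.star_eq, F.sa.2.2.1.star_eq] at this
      rw [← hoC, ← mul_assoc, hpo, zero_mul]
    have hn : ∀ (k : Fin M) (y : ↥(gen sys.act S₁)), ‖(y : D)‖ ≤ 1 → ‖c.hom k y‖ ≤ 1 :=
      fun k y hy => (NonUnitalStarAlgHom.norm_apply_le (c.hom k) y).trans hy
    obtain ⟨s, hsn, hsE, -, hss, hsC⟩ := hM D sys.act sys.act_mul (fun k => c.hom k b₁)
      (fun k => c.hom k o₁) (fun k => c.hom k p₁) (fun k => c.hom k v₁) C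
      (fun g k => ⟨hccfix _ b₁ (fun g => (F.fixed g).1) g,
        hccfix _ o₁ (fun g => (F.fixed g).2.1) g, hccfix _ p₁ (fun g => (F.fixed g).2.2.1) g,
        hCfix g⟩) hCsa
      (norm_prod_le_one c _ fun _ => F.norm_le.2.2.2)
      (fun k => ⟨(show IsSelfAdjoint b₁ from sub F.sa.1.star_eq).map _,
        (show IsSelfAdjoint o₁ from sub F.sa.2.1.star_eq).map _,
        (show IsSelfAdjoint p₁ from sub F.sa.2.2.1.star_eq).map _, hn k _ F.norm_le.1,
        hn k _ F.norm_le.2.1, hn k _ F.norm_le.2.2.1⟩)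
      (fun k => ⟨by rw [← map_star, ← map_mul, ← map_mul]; exact congrArg _ (sub F.vv),
        by rw [← map_mul]; exact congrArg _ (sub F.pv),
        by rw [← map_mul]; exact congrArg _ (sub F.vo),
        by rw [← map_mul]; exact congrArg _ (sub F.ob),
        by rw [← map_mul, show o₁ * p₁ = 0 from sub F.op, map_zero],
        by rw [hmulC, show b₁ * C₁ = C₁ from sub F.bC, hC1],
        by rw [hmulC, show o₁ * C₁ = C₁ from sub hoC, hC1],
        by rw [hmulC, show p₁ * C₁ = 0 from sub hpC, map_zero, zero_mul]⟩)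
      (fun i j hij g h x hx y hy => by
        have e : ∀ (k : Fin M) (z : D), z ∈ [c.hom k b₁, c.hom k o₁, c.hom k p₁, c.hom k v₁,
            star (c.hom k v₁)] → ∀ g, ∃ Y, sys.act g z = c.hom k Y := by
          intro k z hz g
          simp only [List.mem_cons, List.not_mem_nil, or_false] at hz
          rcases hz with rfl | rfl | rfl | rfl | rfl
          all_goals first
            | exact ⟨_, (hceq k.1 g _).symm⟩
            | exact ⟨genAct sys.act_mul S₁ g (star v₁), by
                rw [← map_star]; exact (hceq k.1 g _).symm⟩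
        obtain ⟨Y₁, h₁⟩ := e i x hx g
        obtain ⟨Y₂, h₂⟩ := e j y hy h
        rw [h₁, h₂]
        exact c.comm i j hij _ _)
    have hCa : C * a = a := by
      rw [hCdef, hadef, ← c.prod_mul, show C₁ * a₁ = a₁ from sub F.Ca]
    have haF : Full ({a} : Set D) := by
      have : Nonempty ↥(gen sys.act S₁) := ⟨a₁⟩
      refine c.full_cover Finset.univ (fun _ => {a₁}) (fun _ _ => ha₁) fun f hf => ?_
      rw [show c.prod Finset.univ f = a from c.prod_congr fun i hi => hf i hi]
      exact TwoSidedIdeal.subset_span rfl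
    obtain ⟨x, hxn, hxx, hxE, hxQ⟩ := hxP G hG D sys E ε hε
    -- a copy of the sector element commuting with x
    obtain ⟨m, pb, xb, qb, hxb, h1b⟩ := full_exists_sum haF
    set S₂ : Set D := {s, x, C, a} ∪ Set.range pb ∪ Set.range qb with hS₂
    have hS₂c : S₂.Countable :=
      ((Set.toFinite _).countable.union (Set.countable_range _)).union (Set.countable_range _)
    obtain ⟨dd, hdeq, hdc, -⟩ := sys.exists_copies S₂ hS₂c
    let ι := dd.hom 0
    let S' : ↥(gen sys.act S₂) := ⟨s, subset_gen (by simp [hS₂])⟩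
    let X' : ↥(gen sys.act S₂) := ⟨x, subset_gen (by simp [hS₂])⟩
    let C' : ↥(gen sys.act S₂) := ⟨C, subset_gen (by simp [hS₂])⟩
    let A' : ↥(gen sys.act S₂) := ⟨a, subset_gen (by simp [hS₂])⟩
    have hA' : Full ({ι A'} : Set D) := by
      show (1 : D) ∈ TwoSidedIdeal.span {ι A'}
      let P' : Fin m → ↥(gen sys.act S₂) := fun i =>
        ⟨pb i, subset_gen (Or.inl (Or.inr ⟨i, rfl⟩))⟩
      let Q' : Fin m → ↥(gen sys.act S₂) := fun i => ⟨qb i, subset_gen (Or.inr ⟨i, rfl⟩)⟩
      have e : ∑ i, P' i * A' * Q' i = 1 := Subtype.ext (by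
        rw [show ((∑ i, P' i * A' * Q' i : ↥(gen sys.act S₂)) : D) = ∑ i, pb i * a * qb i from
          map_sum (gen sys.act S₂).subtype _ Finset.univ]
        exact (Finset.sum_congr rfl fun i _ => by rw [show xb i = a from hxb i]).trans h1b)
      rw [← map_one ι, ← e, map_sum]
      simp only [map_mul]
      exact sum_mem fun i _ => TwoSidedIdeal.mul_mem_right _ _ _
        (TwoSidedIdeal.mul_mem_left _ _ _ (TwoSidedIdeal.subset_span rfl))
    set z : D := (1 / 2 : ℝ) • ι S' with hz
    have hιn : ‖ι S'‖ ≤ 2 := (NonUnitalStarAlgHom.norm_apply_le ι S').trans hsn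
    have hzn : ‖z‖ ≤ 1 := by
      rw [hz, norm_smul, Real.norm_eq_abs, abs_of_nonneg (by norm_num : (0 : ℝ) ≤ 1 / 2)]
      linarith
    have hlow : (1 / 16 : ℝ) • (star (ι A') * ι A')
        ≤ star (ι A') * ((1 / 2 : ℝ) • (star z * z)) * ι A' := by
      set A := ι A'
      set Cι := ι C'
      have hCA : Cι * A = A := by
        rw [← map_mul]; exact congrArg ι (Subtype.ext hCa)
      have hCs : IsSelfAdjoint Cι := (show IsSelfAdjoint C' from Subtype.ext hCsa.star_eq).map ι
      set d := Cι * Cι - star (ι S') * ι S' with hd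
      have hdn : ‖d‖ ≤ 1 / 2 := by
        rw [hd, ← map_star, ← map_mul, ← map_mul, ← map_sub]
        refine (NonUnitalStarAlgHom.norm_apply_le ι _).trans ?_
        show ‖C * C - star s * s‖ ≤ 1 / 2
        rw [norm_sub_rev]
        exact hsC.trans (min_le_right _ _)
      have hds : IsSelfAdjoint d :=
        ((hCs.commute_iff hCs).1 (Commute.refl _)).sub (IsSelfAdjoint.star_mul_self _)
      have h1 := star_left_conjugate_le_conjugate
        (hds.le_algebraMap_norm_self.trans (algebraMap_mono D hdn)) A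
      rw [hd, mul_sub, sub_mul, Algebra.algebraMap_eq_smul_one, mul_smul_comm, mul_one,
        smul_mul_assoc, show star A * (Cι * Cι) * A = star A * A by
          rw [← mul_assoc, mul_assoc (star A * Cι), hCA, mul_assoc, hCA],
        sub_le_iff_le_add'] at h1
      have h2 : (1 / 2 : ℝ) • (star A * A) ≤ star A * (star (ι S') * ι S') * A := by
        rw [show (1 / 2 : ℝ) = 1 - 1 / 2 by norm_num, sub_smul, one_smul, sub_le_iff_le_add]
        exact h1
      rw [hz, star_smul, star_trivial (1 / 2 : ℝ), smul_mul_smul_comm, smul_smul, mul_smul_comm,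
        smul_mul_assoc]
      calc (1 / 16 : ℝ) • (star A * A) = (1 / 8 : ℝ) • ((1 / 2 : ℝ) • (star A * A)) := by
            rw [smul_smul]; norm_num
        _ ≤ _ := by
            refine le_trans (smul_le_smul_of_nonneg_left h2 (by norm_num)) (le_of_eq ?_)
            norm_num
    obtain ⟨r, hrB, hr⟩ := exists_cert (fun y => hlen G D sys y) (κ := 1 / 2) (c := 1 / 16)
      (x := x) (z := z) (by norm_num) (lt_of_le_of_lt (min_le_left _ _) (by norm_num)) hA'
      (by
        refine (norm_add_le _ _).trans ?_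
        rw [norm_smul, norm_smul, CStarRing.norm_star_mul_self, CStarRing.norm_star_mul_self,
          Real.norm_eq_abs, abs_of_nonneg (by norm_num : (0 : ℝ) ≤ 1 / 2)]
        nlinarith [norm_nonneg x, norm_nonneg z])
      hlow fun Q => by linarith [hxQ Q, min_le_right (1 / 32 : ℝ) (δp / 2)]
    refine ⟨z, x, r, hzn, hxn, hrB, ?_, hxx, (hdc 0 S' X').smul_left _, ?_, fun g hg => ⟨?_,
      hxE g hg⟩, hr⟩
    · rw [hz, smul_mul_smul_comm, ← map_mul, show S' * S' = 0 from Subtype.ext hss, map_zero,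
        smul_zero]
    · exact Commute.smul_left (hdc 0 S' (star X')) _
    · have hmap : sys.act g z = (1 / 2 : ℝ) • sys.act g (ι S') := by
        rw [hz, ← Complex.coe_smul, map_smul, Complex.coe_smul]
      rw [hmap, hz, ← smul_sub, ← hdeq 0 g S', ← map_sub, norm_smul, Real.norm_eq_abs,
        abs_of_nonneg (by norm_num : (0 : ℝ) ≤ 1 / 2)]
      have h1 : ‖genAct sys.act_mul S₂ g S' - S'‖ ≤ ε := (hsE g hg).trans (min_le_left _ _)
      have h2 := (NonUnitalStarAlgHom.norm_apply_le ι (genAct sys.act_mul S₂ g S' - S')).trans h1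
      linarith [norm_nonneg (ι (genAct sys.act_mul S₂ g S' - S'))]
  -- saturation
  let ts : Bool → Tm G D (Bool ⊕ Fin N) := fun e => .var (Sum.inl e)
  let th : Tm G D (Bool ⊕ Fin N) := .smul ((1 / 2 : ℝ) : ℂ)
    (.add (.mul (.adj (ts false)) (ts false)) (.mul (.adj (ts true)) (ts true)))
  let tr : Fin N → Tm G D (Bool ⊕ Fin N) := fun i => .var (Sum.inr i)
  let rel : Bool ⊕ Bool ⊕ (G × Bool) ⊕ Unit → Tm G D (Bool ⊕ Fin N) := fun q => match q with
    | .inl e => .mul (ts e) (ts e)
    | .inr (.inl true) => Tm.sub (.mul (ts true) (ts false)) (.mul (ts false) (ts true))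
    | .inr (.inl false) =>
        Tm.sub (.mul (ts true) (.adj (ts false))) (.mul (.adj (ts false)) (ts true))
    | .inr (.inr (.inl (g, e))) => Tm.sub (.app g (ts e)) (ts e)
    | .inr (.inr (.inr _)) => Tm.sub
        (Tm.sum (Finset.univ.toList.map fun i => .mul (.mul (.adj (tr i)) th) (tr i))) (.cst 1)
  have evsum : ∀ y : Bool ⊕ Fin N → D, (rel (.inr (.inr (.inr ())))).eval sys.act y
      = (∑ i, star (y (.inr i)) * ((1 / 2 : ℝ) • (star (y (.inl false)) * y (.inl false))
          + (1 / 2 : ℝ) • (star (y (.inl true)) * y (.inl true))) * y (.inr i)) - 1 := fun y => by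
    simp only [rel, Tm.eval_sub, Tm.eval_sum_univ, Tm.eval, th, tr, ts, Complex.coe_smul, smul_add]
  obtain ⟨y, -, hy⟩ := sys.saturate' (max 1 B) rel fun T ε hε => by
    obtain ⟨s, x, r, hsn, hxn, hrB, hss, hxx, hsx, hsx', hfix, hr⟩ := approx
      (T.biUnion fun q => match q with
        | .inr (.inr (.inl (g, _))) => {g}
        | _ => ∅) ε hε
    refine ⟨fun e => match e with
      | .inl true => s
      | .inl false => x
      | .inr i => r i, fun e => ?_, fun q hq => ?_⟩
    · rcases e with (_ | _) | i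
      · exact hxn.trans (le_max_left _ _)
      · exact hsn.trans (le_max_left _ _)
      · exact (hrB i).trans (le_max_right _ _)
    · rcases q with (_ | _) | (_ | _) | ⟨g, e⟩ | _
      · simp [rel, Tm.eval, ts, hxx, hε.le]
      · simp [rel, Tm.eval, ts, hss, hε.le]
      · simp [rel, Tm.eval_sub, Tm.eval, ts, hsx'.eq, hε.le]
      · simp [rel, Tm.eval_sub, Tm.eval, ts, hsx.eq, hε.le]
      · have hg := hfix g (Finset.mem_biUnion.2 ⟨_, hq, Finset.mem_singleton_self g⟩)
        rcases e with _ | _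
        · simpa [rel, Tm.eval_sub, Tm.eval, ts] using hg.2
        · simpa [rel, Tm.eval_sub, Tm.eval, ts] using hg.1
      · rw [evsum]
        simp only [hr, sub_self, norm_zero, hε.le]
  set s := y (.inl true)
  set x := y (.inl false)
  have hs2 : s * s = 0 := by simpa [rel, Tm.eval, ts] using hy (.inl true)
  have hx2 : x * x = 0 := by simpa [rel, Tm.eval, ts] using hy (.inl false)
  have hsx : Commute s x := by
    simpa [rel, Tm.eval_sub, Tm.eval, ts, sub_eq_zero, Commute, SemiconjBy] using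
      hy (.inr (.inl true))
  have hsx' : Commute s (star x) := by
    simpa [rel, Tm.eval_sub, Tm.eval, ts, sub_eq_zero, Commute, SemiconjBy] using
      hy (.inr (.inl false))
  have hfix : ∀ e, y (.inl e) ∈ Finite.fixedAlg sys.act := fun e g => by
    simpa [rel, Tm.eval_sub, Tm.eval, ts, sub_eq_zero] using hy (.inr (.inr (.inl (g, e))))
  have hone := hy (.inr (.inr (.inr ())))
  rw [evsum, sub_eq_zero] at hone
  have hclf : IsClosed (Finite.fixedAlg sys.act : Set D) :=
    Finite.isClosed_fixed sys.act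
  have hcomm := fun i j k l => ofNil_commute hsx hsx' i j k l
  have hoz := CombineN.combine_isOrderZero (Stage4.ofNil_oz hs2) (Stage4.ofNil_oz hx2) hcomm
  have hst := CombineN.star_combine hcomm (Stage4.ofNil_oz hs2) (Stage4.ofNil_oz hx2)
    (Stage4.ofNil_star hs2) (Stage4.ofNil_star hx2)
  refine ⟨CombineN.combine (Stage4.ofNil s) (Stage4.ofNil x), hoz, hst,
    combine_mem _ (ofNil_mem _ hclf (hfix true)) (ofNil_mem _ hclf (hfix false)), one_mem_of_cl ?_⟩
  obtain ⟨hsJ, hxJ⟩ := mem_cl_of_combine (supp_mem_cl hoz hst)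
  rw [← hone]
  refine sum_mem fun i _ => (cl _).mul_mem_right _ _ ((cl _).mul_mem_left _ _ ?_)
  refine (cl _).add_mem ?_ ?_ <;> rw [← Complex.coe_smul]
  · exact smul_mem_ideal _ _ ((cl _).mul_mem_left _ _ hxJ)
  · exact smul_mem_ideal _ _ ((cl _).mul_mem_left _ _ hsJ)

end Main

end Vale.Agent.P095.General
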