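import Vale.Agent.P095.General.Chain.Ideal
import Vale.Agent.P095.Amenable.Colours
import Vale.Agent.P101.Stage2.Band

/-!
Chain, part 2: from two invariant orthogonal full elements, invariant frames with one element
carrying the inner frame into the outer one. Finitely many commuting copies and two colours of
matrices of large size replace a list of rows by one element.
-/

noncomputable section

open Filter Topology

namespace Vale.Agent.P095.General

open Vale.Agent.P101
open Vale.Agent.P101.CombineN (IsOrderZero supp)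

universe u v

/-- Plateau functions away from zero. -/
def plat (θ t : ℝ) : ℝ := Stage4.ramp θ (2 * θ) |t|

lemma continuous_plat (θ : ℝ) : Continuous (plat θ) :=
  (Stage4.continuous_ramp _ _).comp continuous_abs

lemma plat_mem {θ : ℝ} (t : ℝ) : 0 ≤ plat θ t ∧ plat θ t ≤ 1 :=
  ⟨Stage4.ramp_nonneg _ _ _, Stage4.ramp_le_one _ _ _⟩

lemma plat_absorb {θ : ℝ} (hθ : 0 < θ) (t : ℝ) : plat (θ / 2) t * plat θ t = plat θ t := by
  rcases eq_or_ne (plat θ t) 0 with h | h
  · rw [h, mul_zero]
  · have h1 := Stage4.lt_of_ramp_ne_zero (show θ < 2 * θ by linarith) h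
    rw [plat, Stage4.ramp_of_ge (show θ / 2 < 2 * (θ / 2) by linarith) (by linarith), one_mul]

lemma plat_split {θ : ℝ} (hθ : 0 < θ) (t : ℝ) :
    plat θ t = t * (plat θ t * (t / max (t ^ 2) (θ ^ 2))) := by
  rcases eq_or_ne (plat θ t) 0 with h | h
  · rw [h]; ring
  · have h1 := Stage4.lt_of_ramp_ne_zero (show θ < 2 * θ by linarith) h
    have h2 : θ ^ 2 ≤ t ^ 2 := by
      nlinarith [sq_abs t, mul_self_le_mul_self hθ.le h1.le]
    have h3 : t ≠ 0 := by
      rintro rfl
      simp at h1
      linarith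
    rw [max_eq_left h2]
    field_simp

section Local

variable {D : Type u} [CStarAlgebra D]

/-- A plateau of an element. -/
def pl (θ : ℝ) (a : D) : D := cfc (plat θ) a

lemma pl_sa (θ : ℝ) (a : D) : IsSelfAdjoint (pl θ a) := cfc_predicate _ a

lemma norm_pl_le (θ : ℝ) (a : D) : ‖pl θ a‖ ≤ 1 := norm_cfc_le zero_le_one fun t _ => by
  rw [Real.norm_eq_abs, abs_of_nonneg (plat_mem t).1]
  exact (plat_mem t).2

lemma pl_absorb {θ : ℝ} (hθ : 0 < θ) (a : D) : pl (θ / 2) a * pl θ a = pl θ a := by
  rw [pl, pl, ← cfc_mul _ _ a (continuous_plat _).continuousOn (continuous_plat _).continuousOn]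
  exact cfc_congr fun t _ => plat_absorb hθ t

lemma pl_absorb' {θ : ℝ} (hθ : 0 < θ) (a : D) : pl θ a * pl (θ / 2) a = pl θ a := by
  have := congrArg star (pl_absorb hθ a)
  rwa [star_mul, (pl_sa θ a).star_eq, (pl_sa (θ / 2) a).star_eq] at this

lemma pl_orth {θ φ : ℝ} (hθ : 0 < θ) (hφ : 0 < φ) {a b : D} (ha : IsSelfAdjoint a)
    (hb : IsSelfAdjoint b) (h : a * b = 0) : pl θ a * pl φ b = 0 := by
  have hc : ∀ θ : ℝ, 0 < θ → Continuous fun t : ℝ => plat θ t * (t / max (t ^ 2) (θ ^ 2)) :=
    fun θ hθ => (continuous_plat θ).mul (continuous_id.div (by fun_prop)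
      fun t => ne_of_gt (lt_of_lt_of_le (pow_pos hθ 2) (le_max_right _ _)))
  have hl : pl θ a = cfc (fun t => plat θ t * (t / max (t ^ 2) (θ ^ 2))) a * a := by
    conv_rhs => arg 2; rw [← cfc_id' ℝ a]
    rw [pl, ← cfc_mul _ (fun t : ℝ => t) a (hc θ hθ).continuousOn continuousOn_id]
    exact cfc_congr fun t _ => by rw [mul_comm]; exact plat_split hθ t
  have hr : pl φ b = b * cfc (fun t => plat φ t * (t / max (t ^ 2) (φ ^ 2))) b := by
    conv_rhs => arg 1; rw [← cfc_id' ℝ b]
    rw [pl, ← cfc_mul (fun t : ℝ => t) _ b continuousOn_id (hc φ hφ).continuousOn]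
    exact cfc_congr fun t _ => plat_split hφ t
  rw [hl, hr, mul_assoc, ← mul_assoc a, h, zero_mul, mul_zero]

lemma exists_full_pl {a : D} (ha : IsSelfAdjoint a) (h : Full ({a} : Set D)) :
    ∃ θ : ℝ, 0 < θ ∧ Full ({pl θ a} : Set D) := by
  obtain ⟨n, p, x, q, hx, h1⟩ := full_exists_sum h
  obtain ⟨θ, hθ, hs⟩ : ∃ θ : ℝ, 0 < θ ∧ (∑ i, ‖p i‖ * ‖q i‖) * (2 * θ) < 1 := by
    have hS : 0 ≤ ∑ i, ‖p i‖ * ‖q i‖ :=
      Finset.sum_nonneg fun i _ => mul_nonneg (norm_nonneg _) (norm_nonneg _)
    refine ⟨1 / (2 * (∑ i, ‖p i‖ * ‖q i‖) + 2), by positivity, ?_⟩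
    rw [mul_one_div, ← mul_div_assoc, div_lt_one (by positivity)]
    linarith
  refine ⟨θ, hθ, ?_⟩
  show (1 : D) ∈ TwoSidedIdeal.span {pl θ a}
  set J := TwoSidedIdeal.span ({pl θ a} : Set D)
  have hd : ‖a - a * pl θ a‖ ≤ 2 * θ := by
    have e0 : a - a * pl θ a = cfc (fun t : ℝ => t - t * plat θ t) a := by
      rw [cfc_sub (fun t : ℝ => t) (fun t => t * plat θ t) a continuousOn_id
          (continuous_id.mul (continuous_plat θ)).continuousOn,
        cfc_mul (fun t : ℝ => t) (plat θ) a continuousOn_id (continuous_plat θ).continuousOn,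
        cfc_id' ℝ a]
      rfl
    rw [e0]
    refine norm_cfc_le (by positivity) fun t _ => ?_
    rw [Real.norm_eq_abs, ← mul_one_sub, abs_mul, abs_of_nonneg (by linarith [(plat_mem (θ := θ) t).2] : (0 : ℝ) ≤ 1 - plat θ t)]
    rcases le_or_gt |t| (2 * θ) with h | h
    · exact (mul_le_mul h (by linarith [(plat_mem (θ := θ) t).1]) (by linarith [(plat_mem (θ := θ) t).2])
        (by positivity)).trans_eq (mul_one _)
    · rw [plat, Stage4.ramp_of_ge (by linarith) h.le, sub_self, mul_zero]
      positivity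
  refine one_mem_of_near (z := ∑ i, p i * (a * pl θ a) * q i)
    (sum_mem fun i _ => J.mul_mem_right _ _ (J.mul_mem_left _ _ (J.mul_mem_left a _
      (TwoSidedIdeal.subset_span rfl)))) ?_
  have e : 1 - ∑ i, p i * (a * pl θ a) * q i = ∑ i, p i * (a - a * pl θ a) * q i := by
    rw [← h1, ← Finset.sum_sub_distrib]
    refine Finset.sum_congr rfl fun i _ => ?_
    rw [show x i = a from hx i, mul_sub, sub_mul]
  rw [e]
  refine lt_of_le_of_lt ((norm_sum_le _ _).trans ?_) hs
  rw [Finset.sum_mul]
  refine Finset.sum_le_sum fun i _ => ?_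
  calc ‖p i * (a - a * pl θ a) * q i‖ ≤ ‖p i‖ * ‖a - a * pl θ a‖ * ‖q i‖ :=
        (norm_mul_le _ _).trans (mul_le_mul_of_nonneg_right (norm_mul_le _ _) (norm_nonneg _))
    _ ≤ ‖p i‖ * ‖q i‖ * (2 * θ) := by
        rw [mul_right_comm]
        exact mul_le_mul_of_nonneg_left hd (mul_nonneg (norm_nonneg _) (norm_nonneg _))

/-- A full self-adjoint element gives rows. -/
lemma exists_rows {a : D} (_ : IsSelfAdjoint a) (h : Full ({a} : Set D)) :
    ∃ (N : ℕ) (u : Fin N → D), ∑ i, star (a * u i) * (a * u i) = 1 := by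
  let := CStarAlgebra.spectralOrder D
  have := CStarAlgebra.spectralOrderedRing D
  classical
  obtain ⟨n, p, x, q, hx, h1⟩ := full_exists_sum h
  have key : ∀ s : Finset (Fin n), ∃ C : ℝ, 0 ≤ C ∧
      star (∑ i ∈ s, p i * (a * q i)) * (∑ i ∈ s, p i * (a * q i)) ≤
        C • ∑ i ∈ s, star (a * q i) * (a * q i) := by
    intro s
    induction s using Finset.induction_on with
    | empty => exact ⟨0, le_rfl, by simp⟩
    | insert i s hi ih =>
      obtain ⟨C, hC, hle⟩ := ih
      set y := p i * (a * q i) with hy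
      set S := ∑ j ∈ s, p j * (a * q j) with hS
      set T := ∑ j ∈ s, star (a * q j) * (a * q j) with hT
      set Y := star (a * q i) * (a * q i) with hY
      have hY0 : 0 ≤ Y := star_mul_self_nonneg _
      have hT0 : 0 ≤ T := Finset.sum_nonneg fun j _ => star_mul_self_nonneg _
      have hy1 : star y * y ≤ ‖p i‖ ^ 2 • Y := by
        have h0 := star_left_conjugate_le_conjugate
          (CStarAlgebra.star_mul_le_algebraMap_norm_sq (a := p i)) (a * q i)
        rw [Algebra.algebraMap_eq_smul_one, mul_smul_comm, mul_one, smul_mul_assoc] at h0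
        rw [hy, star_mul, mul_assoc, ← mul_assoc (star (p i)), ← mul_assoc]
        exact h0
      refine ⟨2 * max (‖p i‖ ^ 2) C, by positivity, ?_⟩
      rw [Finset.sum_insert hi, Finset.sum_insert hi, ← hy, ← hS, ← hT, ← hY]
      have e : star (y + S) * (y + S) + star (y - S) * (y - S)
          = (2 : ℝ) • (star y * y + star S * S) := by
        rw [two_smul, star_add, star_sub]; noncomm_ring
      calc star (y + S) * (y + S) ≤ (2 : ℝ) • (star y * y + star S * S) :=
            e ▸ le_add_of_nonneg_right (star_mul_self_nonneg _)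
        _ ≤ (2 : ℝ) • (max (‖p i‖ ^ 2) C • Y + max (‖p i‖ ^ 2) C • T) :=
            smul_le_smul_of_nonneg_left (add_le_add
              (hy1.trans (smul_le_smul_of_nonneg_right (le_max_left _ _) hY0))
              (hle.trans (smul_le_smul_of_nonneg_right (le_max_right _ _) hT0))) zero_le_two
        _ = _ := by rw [← smul_add, smul_smul]
  obtain ⟨C, hC, hle⟩ := key Finset.univ
  set S := ∑ i, star (a * q i) * (a * q i) with hS
  have hone : ∑ i, p i * (a * q i) = 1 := by
    rw [← h1]
    exact Finset.sum_congr rfl fun i _ => by rw [show x i = a from hx i, mul_assoc]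
  rw [hone, star_one, one_mul] at hle
  have hS0 : 0 ≤ S := Finset.sum_nonneg fun j _ => star_mul_self_nonneg _
  have hSsa : IsSelfAdjoint S := IsSelfAdjoint.of_nonneg hS0
  have hspec : ∀ t ∈ spectrum ℝ S, 1 / (C + 1) ≤ t := by
    refine (algebraMap_le_iff_le_spectrum (a := S) (r := 1 / (C + 1))).1 ?_
    rw [Algebra.algebraMap_eq_smul_one]
    calc (1 / (C + 1)) • (1 : D) ≤ (1 / (C + 1)) • (C • S) :=
          smul_le_smul_of_nonneg_left hle (by positivity)
      _ ≤ S := by
          rw [smul_smul]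
          conv_rhs => rw [← one_smul ℝ S]
          refine smul_le_smul_of_nonneg_right ?_ hS0
          rw [div_mul_eq_mul_div, one_mul, div_le_one (by positivity)]
          linarith
  set f : ℝ → ℝ := fun t => 1 / Real.sqrt (max t (1 / (C + 1))) with hf
  have hc : Continuous f := continuous_const.div (by fun_prop) fun t =>
    (Real.sqrt_pos.2 (lt_of_lt_of_le (by positivity) (le_max_right _ _))).ne'
  refine ⟨n, fun i => q i * cfc f S, ?_⟩
  have e : ∑ i, star (a * (q i * cfc f S)) * (a * (q i * cfc f S)) = cfc f S * S * cfc f S := by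
    have hfs := (cfc_predicate f S : IsSelfAdjoint _).star_eq
    generalize cfc f S = F at hfs ⊢
    rw [hS, Finset.mul_sum, Finset.sum_mul]
    simp only [star_mul, hfs, mul_assoc]
  have e2 : cfc f S * S * cfc f S = cfc (fun t : ℝ => f t * t * f t) S := by
    rw [cfc_mul (fun t : ℝ => f t * t) f S (hc.mul continuous_id).continuousOn hc.continuousOn,
      cfc_mul f (fun t : ℝ => t) S hc.continuousOn continuousOn_id, cfc_id' ℝ S]
  rw [e, e2, ← cfc_const_one ℝ S]
  refine cfc_congr fun t ht => ?_
  have h0 : (0 : ℝ) < t := lt_of_lt_of_le (by positivity) (hspec t ht)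
  simp only [hf, max_eq_left (hspec t ht)]
  field_simp
  rw [Real.sq_sqrt h0.le]

end Local

section Copies

variable {B D : Type u} [CStarAlgebra B] [CStarAlgebra D] {K : ℕ} (c : Copies B D (Fin K))

lemma star_prod (s : Finset (Fin K)) (g : Fin K → B) :
    star (c.prod s g) = c.prod s fun i => star (g i) := by
  induction s using Finset.induction_on with
  | empty => simp [Copies.prod_empty]
  | insert i s hi ih => rw [c.prod_insert hi, c.prod_insert' hi, star_mul, ih, map_star]

lemma norm_prod_le_one (g : Fin K → B) (hg : ∀ i, ‖g i‖ ≤ 1) : ‖c.prod Finset.univ g‖ ≤ 1 :=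
  Vale.Agent.P101.Stage2.norm_prod_le c _ g fun i _ => hg i

lemma prod_fixed {G : Type v} {act : G → D ≃⋆ₐ[ℂ] D} (s : Finset (Fin K)) (g : Fin K → B)
    (h : ∀ i γ, act γ (c.hom i (g i)) = c.hom i (g i)) (γ : G) :
    act γ (c.prod s g) = c.prod s g := by
  induction s using Finset.induction_on with
  | empty => rw [Copies.prod_empty, map_one]
  | insert i s hi ih => rw [c.prod_insert hi, map_mul, h, ih]

lemma commute_prod_all (s : Finset (Fin K)) (g : Fin K → B) {x : D}
    (h : ∀ i, Commute x (c.hom i (g i))) : Commute x (c.prod s g) :=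
  Finset.noncommProd_commute _ _ _ _ fun i _ => h i

/-- A choice of slot. -/
def slot (x y : B) (j : Fin K) : Fin K → B := fun l => if l = j then x else y

lemma slot_mul (x y x' y' : B) (j : Fin K) :
    (fun l => slot x y j l * slot x' y' j l) = slot (x * x') (y * y') j := by
  funext l; simp only [slot]; split <;> rfl

lemma prod_zero_of {g : Fin K → B} (j : Fin K) (h : g j = 0) : c.prod Finset.univ g = 0 := by
  rw [← Finset.insert_erase (Finset.mem_univ j), c.prod_insert (Finset.notMem_erase j _), h,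
    map_zero, zero_mul]

lemma prod_slot (x y : B) (j : Fin K) :
    c.prod Finset.univ (slot x y j) = c.hom j x * c.prod (Finset.univ.erase j) fun _ => y := by
  conv_lhs => rw [← Finset.insert_erase (Finset.mem_univ j)]
  rw [c.prod_insert (Finset.notMem_erase j _), slot, if_pos rfl]
  congr 1
  exact c.prod_congr fun i hi => by simp [slot, Finset.ne_of_mem_erase hi]

end Copies

section Frame

variable {G : Type v} [Group G] {D : Type u} [CStarAlgebra D] (sys : Sys G D)

/-- Invariant frames b, o, p with one element v from b into p, an inner frame C and a full plateau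
a under it. -/
structure Frame where
  b : D
  o : D
  p : D
  v : D
  C : D
  a : D
  fixed : ∀ g, sys.act g b = b ∧ sys.act g o = o ∧ sys.act g p = p ∧ sys.act g C = C
  sa : IsSelfAdjoint b ∧ IsSelfAdjoint o ∧ IsSelfAdjoint p ∧ IsSelfAdjoint C
  norm_le : ‖b‖ ≤ 1 ∧ ‖o‖ ≤ 1 ∧ ‖p‖ ≤ 1 ∧ ‖C‖ ≤ 1
  vv : star v * v = b * b
  pv : p * v = v
  vo : v * o = v
  ob : o * b = b
  op : o * p = 0
  bC : b * C = C
  Ca : C * a = a
  full : Full ({a} : Set D)

/-- Two invariant orthogonal full elements give a frame. -/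
theorem exists_frame (e e' : D) (he : IsSelfAdjoint e) (he' : IsSelfAdjoint e')
    (hfe : ∀ g, sys.act g e = e) (hfe' : ∀ g, sys.act g e' = e') (hee : e * e' = 0)
    (hF : Full ({e} : Set D)) (hF' : Full ({e'} : Set D)) : Nonempty (Frame sys) := by
  classical
  let := CStarAlgebra.spectralOrder D
  have := CStarAlgebra.spectralOrderedRing D
  obtain ⟨θ, hθ, hθF⟩ := exists_full_pl he hF
  obtain ⟨φ, hφ, hφF⟩ := exists_full_pl he' hF'
  obtain ⟨N, u, hu⟩ := exists_rows (pl_sa φ e') hφF
  set a₁ := pl θ e with ha₁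
  set c₀ := pl (θ / 2) e with hc₀
  set b₀ := pl (θ / 2 / 2) e with hb₀
  set o₀ := pl (θ / 2 / 2 / 2) e with ho₀
  set p₀ := pl (φ / 2) e' with hp₀
  set w : Fin N → D := fun r => pl φ e' * u r * b₀ with hw
  have hca : c₀ * a₁ = a₁ := pl_absorb hθ e
  have hbc : b₀ * c₀ = c₀ := pl_absorb (half_pos hθ) e
  have hob : o₀ * b₀ = b₀ := pl_absorb (half_pos (half_pos hθ)) e
  have hbo : b₀ * o₀ = b₀ := pl_absorb' (half_pos (half_pos hθ)) e
  have hop : o₀ * p₀ = 0 := pl_orth (by positivity) (half_pos hφ) he he' hee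
  have hpb : p₀ * b₀ = 0 := by
    have hbp : b₀ * p₀ = 0 := pl_orth (by positivity) (half_pos hφ) he he' hee
    have := congrArg star hbp
    rwa [star_mul, star_zero, (pl_sa (φ / 2) e').star_eq, (pl_sa (θ / 2 / 2) e).star_eq] at this
  have hpw : ∀ r, p₀ * w r = w r := fun r => by
    rw [hw, hp₀]; dsimp only
    rw [← mul_assoc, ← mul_assoc, pl_absorb hφ]
  have hwo : ∀ r, w r * o₀ = w r := fun r => by
    rw [hw]; dsimp only
    rw [mul_assoc, hbo]
  have hww : ∑ r, star (w r) * w r = b₀ * b₀ := by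
    calc ∑ r, star (w r) * w r
        = b₀ * (∑ r, star (pl φ e' * u r) * (pl φ e' * u r)) * b₀ := by
          rw [Finset.mul_sum, Finset.sum_mul]
          refine Finset.sum_congr rfl fun r _ => ?_
          rw [hw]; dsimp only
          rw [star_mul, hb₀, (pl_sa (θ / 2 / 2) e).star_eq]
          simp only [mul_assoc]
      _ = b₀ * b₀ := by rw [hu, mul_one]
  obtain ⟨M, ρ, hρ⟩ := exists_rows (pl_sa θ e) hθF
  set S₀ : Set D := {a₁, c₀, b₀, o₀, p₀} ∪ Set.range w ∪ Set.range ρ with hS₀
  have hS₀c : S₀.Countable :=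
    ((Set.toFinite _).countable.union (Set.countable_range w)).union (Set.countable_range ρ)
  obtain ⟨cc, -, -, hccfix⟩ := sys.exists_copies S₀ hS₀c
  let Bt := ↥(gen sys.act S₀)
  let A : Bt := ⟨a₁, subset_gen (by simp [hS₀])⟩
  let Cc : Bt := ⟨c₀, subset_gen (by simp [hS₀])⟩
  let Bb : Bt := ⟨b₀, subset_gen (by simp [hS₀])⟩
  let O : Bt := ⟨o₀, subset_gen (by simp [hS₀])⟩
  let P : Bt := ⟨p₀, subset_gen (by simp [hS₀])⟩
  let W : Fin N → Bt := fun r => ⟨w r, subset_gen (Or.inl (Or.inr ⟨r, rfl⟩))⟩
  let R : Fin M → Bt := fun r => ⟨ρ r, subset_gen (Or.inr ⟨r, rfl⟩)⟩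
  set K := 4 * (N + 1) with hK
  have hK0 : 0 < K := by omega
  let c : Copies Bt D (Fin K) :=
    ⟨fun i => cc.hom i.1, fun i j h a b => cc.comm _ _ (fun e => h (Fin.ext e)) a b⟩
  have hfixA : ∀ (x : Bt), (∀ g, sys.act g (x : D) = x) → ∀ i g,
      sys.act g (c.hom i x) = c.hom i x := fun x hx i g => hccfix i.1 x hx g
  have plfix : ∀ (ψ : ℝ) (y : D), IsSelfAdjoint y → (∀ g, sys.act g y = y) →
      ∀ g, sys.act g (pl ψ y) = pl ψ y := fun ψ y hy hyf g => by
    rw [pl, StarAlgHomClass.map_cfc (sys.act g) (plat ψ) y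
      (continuous_plat ψ).continuousOn (continuous_act _) hy (by rw [hyf]; exact hy), hyf]
  let z : Fin K → D := fun j => c.prod Finset.univ (slot P O j)
  let y : Fin K → Fin N → D := fun j r => c.prod Finset.univ (slot (W r) Bb j)
  let b : D := c.prod Finset.univ fun _ => Bb
  let o : D := c.prod Finset.univ fun _ => O
  let C : D := c.prod Finset.univ fun _ => Cc
  let a : D := c.prod Finset.univ fun _ => A
  have sub : ∀ {x x' : Bt}, (x : D) = x' → x = x' := fun h => Subtype.ext h
  have hsc : ∀ {m : ℕ} (f : Fin m → Bt), ((∑ i, f i : Bt) : D) = ∑ i, (f i : D) := fun f =>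
    map_sum (gen sys.act S₀).subtype f _
  have hPW : ∀ r, P * W r = W r := fun r => sub (hpw r)
  have hOB : O * Bb = Bb := sub hob
  have hOP : O * P = 0 := sub hop
  have hPB : P * Bb = 0 := sub hpb
  have saB : star Bb = Bb := sub (pl_sa _ _).star_eq
  have saO : star O = O := sub (pl_sa _ _).star_eq
  have saP : star P = P := sub (pl_sa _ _).star_eq
  have saC : star Cc = Cc := sub (pl_sa _ _).star_eq
  have hPO : P * O = 0 := by
    have := congrArg star hOP
    rwa [star_mul, saP, saO, star_zero] at this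
  have hzy : ∀ j r, z j * y j r = y j r := fun j r => by
    simp only [z, y, ← c.prod_mul, slot_mul, hPW, hOB]
  have hzy' : ∀ i j r, i ≠ j → z i * y j r = 0 := fun i j r h => by
    simp only [z, y, ← c.prod_mul]
    exact prod_zero_of c i (by simp [slot, h, hPB])
  have hzz : ∀ i j, i ≠ j → z i * z j = 0 := fun i j h => by
    simp only [z, ← c.prod_mul]
    exact prod_zero_of c i (by simp [slot, h, hPO])
  have zsa : ∀ j, IsSelfAdjoint (z j) := fun j => by
    rw [IsSelfAdjoint, star_prod]
    exact c.prod_congr fun l _ => by simp only [slot]; split_ifs <;> assumption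
  have hyy : ∀ i j r s, i ≠ j → star (y i r) * y j s = 0 := fun i j r s h => by
    rw [← hzy i r, star_mul, (zsa i).star_eq, mul_assoc, hzy' i j s h, mul_zero]
  have hrow : ∀ j, ∑ r, star (y j r) * y j r = b * b := fun j => by
    have e1 : ∀ r, star (y j r) * y j r
        = c.prod Finset.univ (slot (star (W r) * W r) (Bb * Bb) j) := fun r => by
      simp only [y, star_prod, ← c.prod_mul]
      refine c.prod_congr fun l _ => ?_
      simp only [slot]
      split_ifs
      · rfl
      · rw [saB]
    have e2 : b * b = c.prod Finset.univ (slot (Bb * Bb) (Bb * Bb) j) := by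
      simp only [b, ← c.prod_mul]
      exact c.prod_congr fun l _ => by simp [slot]
    simp only [e1, e2, prod_slot, ← Finset.sum_mul, ← map_sum]
    congr 2
    exact sub (by rw [hsc]; exact hww)
  -- colours commuting with everything built so far
  let T₀ : Set Bt := {A, Cc, Bb, O, P} ∪ Set.range W ∪ Set.range fun r => star (W r)
  let X : Set D := (⋃ i : Fin K, c.hom i '' T₀) ∪ star '' (⋃ i : Fin K, c.hom i '' T₀)
  have hT₀ : T₀.Countable :=
    ((Set.toFinite _).countable.union (Set.countable_range W)).union (Set.countable_range _)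
  have hX : X.Countable :=
    (Set.countable_iUnion fun i => hT₀.image _).union
      ((Set.countable_iUnion fun i => hT₀.image _).image _)
  obtain ⟨n, i₀, E, v₀, hn, -, hE, hEs, hEp, hv₀, hfix₀, hcomm⟩ :=
    sys.exists_comparisonN X hX (2 * (N + 1))
  have hXs : ∀ s ∈ X, star s ∈ X := by
    rintro s (hs | ⟨t, ht, rfl⟩)
    · exact Or.inr ⟨s, hs, rfl⟩
    · rw [star_star]; exact Or.inl ht
  let Q : StarSubalgebra ℂ D := StarSubalgebra.centralizer ℂ X
  have hQ : IsClosed (Q : Set D) := by
    have : (Q : Set D) = Set.centralizer (X ∪ star X) := StarSubalgebra.coe_centralizer ℂ X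
    rw [this]
    exact Set.isClosed_centralizer _
  let hQC : CStarAlgebra ↥Q := StarSubalgebra.cstarAlgebra Q (h_closed := hQ)
  have hinQ : ∀ x : D, (∀ s ∈ X, Commute x s) → x ∈ Q := fun x h => by
    rw [StarSubalgebra.mem_centralizer_iff]
    exact fun s hs => ⟨(h s hs).eq.symm, (h _ (hXs s hs)).eq.symm⟩
  have hEQ : ∀ i j, E i j ∈ Q := fun i j => hinQ _ fun s hs => (hcomm s hs).1 i j
  have hvQ : v₀ ∈ Q := hinQ _ fun s hs => (hcomm s hs).2
  obtain ⟨g, q, hgg, hgeq, hsum⟩ := Amenable.colours_of_comparisonN (D := ↥Q) (z := i₀)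
    ⟨fun i j => ⟨E i j, hEQ i j⟩, ⟨v₀, hvQ⟩, ⟨fun i j k l => Subtype.ext (by
        have := hE.mul_eq i j k l
        split_ifs with h
        · rw [if_pos h] at this
          simpa [supp, AddSubmonoidClass.coe_finsetSum] using this
        · rw [if_neg h] at this
          simpa using this)⟩,
      fun i j => Subtype.ext (hEs i j), fun i => by
        obtain ⟨r, hr⟩ := hEp i
        have h0 : 0 ≤ E i i := hr ▸ star_mul_self_nonneg r
        refine ⟨⟨cfc Real.sqrt (E i i),
          _root_.cfc_mem (hs := hQ) (𝕜' := ℂ) Real.sqrt (hEQ i i)⟩, Subtype.ext ?_⟩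
        show star (cfc Real.sqrt (E i i)) * cfc Real.sqrt (E i i) = E i i
        rw [(cfc_predicate Real.sqrt (E i i) : IsSelfAdjoint _).star_eq,
          ← cfc_mul Real.sqrt Real.sqrt (E i i) Real.continuous_sqrt.continuousOn
            Real.continuous_sqrt.continuousOn]
        conv_rhs => rw [← cfc_id' ℝ (E i i) (IsSelfAdjoint.of_nonneg h0)]
        exact cfc_congr fun t ht => Real.mul_self_sqrt (spectrum_nonneg_of_nonneg h0 ht),
      Subtype.ext (by simpa [supp, AddSubmonoidClass.coe_finsetSum] using hv₀),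
      Subtype.ext hfix₀⟩
  have hQprod : ∀ (x : ↥Q) (f : Fin K → Bt), (∀ l, f l ∈ T₀) →
      Commute (x : D) (c.prod Finset.univ f) := fun x f hf =>
    commute_prod_all c _ f fun l => ((StarSubalgebra.mem_centralizer_iff ℂ).1 x.2 _
      (Or.inl (Set.mem_iUnion.2 ⟨l, f l, hf l, rfl⟩))).1.symm
  have hQz : ∀ (x : ↥Q) j, Commute (x : D) (z j) := fun x j => hQprod x _ fun l => by
    simp only [slot]; split_ifs <;> simp [T₀]
  have hQy : ∀ (x : ↥Q) j r, Commute (x : D) (y j r) ∧ Commute (x : D) (star (y j r)) :=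
    fun x j r => by
      refine ⟨hQprod x _ fun l => ?_, ?_⟩
      · simp only [slot]; split_ifs <;> simp [T₀]
      · have := hQprod (star x) (slot (W r) Bb j) fun l => by
          simp only [slot]; split_ifs <;> simp [T₀]
        have h2 := congrArg star this.eq
        simp only [star_mul, StarMemClass.coe_star, star_star] at h2
        exact h2.symm
  let ix : Fin 2 × Fin n → ℕ := fun x => x.1.val * n + x.2.val
  have hix : ∀ x, ix x < 2 * n := fun x => by
    have := x.2.isLt
    have := x.1.isLt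
    simp only [ix]
    nlinarith
  have hixinj : ∀ x x', ix x = ix x' → x = x' := by
    rintro ⟨d, i⟩ ⟨d', i'⟩ h
    have := i.isLt
    have := i'.isLt
    simp only [ix] at h
    have : d = d' := by
      fin_cases d <;> fin_cases d' <;> first | rfl | (simp at h; omega)
    subst this
    simpa [Fin.ext_iff] using h
  let col : Fin 2 × Fin n → Fin K := fun x => ⟨ix x % K, Nat.mod_lt _ hK0⟩
  have hpn : ∀ (x : Fin 2 × Fin n) (r : Fin N), ix x / K * N + r.val < n := fun x r => by
    have h1 := Nat.div_mul_le_self (ix x) K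
    have h2 := hix x
    have h3 := r.isLt
    rw [hK] at h1
    rw [hK]
    nlinarith
  let pos : (Fin 2 × Fin n) × Fin N → Fin n := fun a => ⟨ix a.1 / K * N + a.2.val, hpn a.1 a.2⟩
  have hpos : ∀ a a', pos a = pos a' → a ≠ a' → col a.1 ≠ col a'.1 := by
    rintro ⟨x, r⟩ ⟨x', r'⟩ h hne hc
    have h' : ix x / K * N + r.val = ix x' / K * N + r'.val := congrArg Fin.val h
    have h1 := r.isLt
    have h2 := r'.isLt
    have hb : ix x / K = ix x' / K := by
      rcases lt_trichotomy (ix x / K) (ix x' / K) with hl | hl | hl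
      · nlinarith
      · exact hl
      · nlinarith
    have hr : r = r' := Fin.ext (by rw [hb] at h'; omega)
    have hm : ix x % K = ix x' % K := congrArg Fin.val hc
    exact hne (Prod.ext (hixinj x x' (by rw [← Nat.div_add_mod (ix x) K, hb, hm, Nat.div_add_mod]))
      hr)
  let h : (Fin 2 × Fin n) × Fin N → ↥Q := fun a => g (pos a) * q a.1.1 a.1.2
  let T : (Fin 2 × Fin n) × Fin N → D := fun a => (h a : D) * y (col a.1) a.2
  let v : D := ∑ a, T a
  let p : D := ∑ j, z j
  have hoz : ∀ j, o * z j = 0 := fun j => by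
    simp only [o, z, ← c.prod_mul]
    exact prod_zero_of c j (by simp [slot, hOP])
  have zfix : ∀ γ j, sys.act γ (z j) = z j := fun γ j =>
    prod_fixed c _ _ (fun l γ => by
      simp only [slot]
      split_ifs
      · exact hfixA P (plfix _ _ he' hfe') l γ
      · exact hfixA O (plfix _ _ he hfe) l γ) γ
  have hPy : ∀ j r, p * y j r = y j r := fun j r => by
    simp only [p, Finset.sum_mul]
    rw [Finset.sum_eq_single j (fun i _ hi => hzy' i j r hi) (by simp), hzy]
  have hcross : ∀ a a', a ≠ a' → star (T a) * T a' = 0 := fun a a' hne => by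
    simp only [T, star_mul, mul_assoc]
    by_cases hp : pos a = pos a'
    · rw [← mul_assoc (star (h a : D)), ← mul_assoc (star (y (col a.1) a.2)),
        ← StarMemClass.coe_star, ← MulMemClass.coe_mul, ← (hQy _ _ _).2.eq, mul_assoc,
        hyy _ _ _ _ (hpos a a' hp hne), mul_zero]
    · have : star (h a) * h a' = 0 := by
        simp only [h, star_mul, mul_assoc]
        rw [← mul_assoc (star (g (pos a))), hgg _ _ hp, zero_mul, mul_zero]
      rw [← mul_assoc (star (h a : D)), ← StarMemClass.coe_star, ← MulMemClass.coe_mul, this]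
      simp
  have hvv : star v * v = b * b := by
    calc star v * v = ∑ a, star (T a) * T a := by
          simp only [v, star_sum, Finset.sum_mul_sum]
          exact Finset.sum_congr rfl fun a _ => Finset.sum_eq_single a
            (fun a' _ hne => hcross a a' hne.symm) (by simp)
      _ = ∑ x : Fin 2 × Fin n,
          ((star (g x.2 * q x.1 x.2) * (g x.2 * q x.1 x.2) : ↥Q) : D) * (b * b) := by
          rw [Fintype.sum_prod_type]
          refine Finset.sum_congr rfl fun x _ => ?_
          rw [← hrow (col x), Finset.mul_sum]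
          refine Finset.sum_congr rfl fun r _ => ?_
          have e : star (g x.2 * q x.1 x.2) * (g x.2 * q x.1 x.2)
              = star (h (x, r)) * h (x, r) := by
            simp only [h, star_mul, mul_assoc]
            rw [← mul_assoc (star (g x.2)), hgeq x.2 (pos (x, r)), mul_assoc]
          rw [e]
          simp only [T, star_mul]
          rw [← mul_assoc _ (star (y (col x) r)),
            (hQy (star (h (x, r)) * h (x, r)) (col x) r).2.eq]
          simp only [mul_assoc, MulMemClass.coe_mul, StarMemClass.coe_star]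
      _ = b * b := by
          have := congrArg (fun t : ↥Q => (t : D)) hsum
          simp only [AddSubmonoidClass.coe_finsetSum, OneMemClass.coe_one] at this
          rw [← Finset.sum_mul, Fintype.sum_prod_type, this, one_mul]
  have hyo : ∀ j r, y j r * o = y j r := fun j r => by
    simp only [o, y, ← c.prod_mul]
    refine c.prod_congr fun l _ => ?_
    simp only [slot]
    split_ifs
    · exact sub (hwo r)
    · exact sub hbo
  have fixprod : ∀ (x : Bt), (∀ γ, sys.act γ (x : D) = x) → ∀ γ,
      sys.act γ (c.prod Finset.univ fun _ => x) = c.prod Finset.univ fun _ => x :=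
    fun x hx γ => prod_fixed c _ _ (fun i γ => hfixA x hx i γ) γ
  have saprod : ∀ x : Bt, star x = x → IsSelfAdjoint (c.prod Finset.univ fun _ => x) :=
    fun x hx => by rw [IsSelfAdjoint, star_prod]; exact c.prod_congr fun i _ => hx
  refine ⟨⟨b, o, p, v, C, a, fun γ => ⟨fixprod Bb (plfix _ _ he hfe) γ,
    fixprod O (plfix _ _ he hfe) γ, ?_, fixprod Cc (plfix _ _ he hfe) γ⟩,
    ⟨saprod _ saB, saprod _ saO, isSelfAdjoint_sum _ fun j _ => zsa j, saprod _ saC⟩,
    ⟨norm_prod_le_one c _ fun _ => norm_pl_le _ e, norm_prod_le_one c _ fun _ => norm_pl_le _ e,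
      Stage2.norm_sum_le_of_orth_self _ _ (fun j _ => zsa j) (fun i _ j _ hij => hzz i j hij)
        zero_le_one fun j _ => norm_prod_le_one c _ fun l => ?_,
      norm_prod_le_one c _ fun _ => norm_pl_le _ e⟩, hvv, ?_, ?_, ?_, ?_, ?_, ?_, ?_⟩⟩
  · simp only [p, map_sum, zfix]
  · simp only [slot]; split_ifs
    · exact norm_pl_le _ e'
    · exact norm_pl_le _ e
  · simp only [v, Finset.mul_sum]
    refine Finset.sum_congr rfl fun t _ => ?_
    have hcp : Commute p (h t : D) := Commute.sum_left _ _ _ fun j _ => (hQz _ j).symm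
    simp only [T]
    rw [← mul_assoc, hcp.eq, mul_assoc, hPy]
  · simp only [v, Finset.sum_mul]
    refine Finset.sum_congr rfl fun t _ => ?_
    simp only [T]
    rw [mul_assoc, hyo]
  · simp only [o, b, ← c.prod_mul, hOB]
  · simp only [p, Finset.mul_sum, hoz, Finset.sum_const_zero]
  · have hBC : Bb * Cc = Cc := sub hbc
    simp only [b, C, ← c.prod_mul, hBC]
  · have hCA : Cc * A = A := sub hca
    simp only [C, a, ← c.prod_mul, hCA]
  · have hA : Full ({A} : Set Bt) := by
      show (1 : Bt) ∈ TwoSidedIdeal.span {A}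
      have e : ∑ r, star (A * R r) * A * R r = 1 := by
        refine sub ?_
        rw [hsc]
        simp only [A, R, OneMemClass.coe_one,
          mul_assoc] at hρ ⊢
        exact hρ
      rw [← e]
      exact sum_mem fun r _ => TwoSidedIdeal.mul_mem_right _ _ _
        (TwoSidedIdeal.mul_mem_left _ _ _ (TwoSidedIdeal.subset_span rfl))
    have : Nonempty Bt := ⟨A⟩
    refine c.full_cover Finset.univ (fun _ => {A}) (fun _ _ => hA) fun f hf => ?_
    have : c.prod Finset.univ f = a := c.prod_congr fun i hi => hf i hi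
    rw [this]
    exact TwoSidedIdeal.subset_span rfl

end Frame

end Vale.Agent.P095.General
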