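import Vale.Agent.P095.General.Basic

/-!
Chain, part 1: closed ideals, fullness of cuts, and saturation over finite index types.
-/

noncomputable section

open Filter Topology

namespace Vale.Agent.P095.General

open Vale.Agent.P101

universe u v

section Ideal

variable {D : Type u} [CStarAlgebra D]

/-- The closure of a two-sided ideal. -/
def cl (J : TwoSidedIdeal D) : TwoSidedIdeal D :=
  TwoSidedIdeal.mk' (closure (J : Set D)) (subset_closure J.zero_mem)
    (fun {a b} ha hb => map_mem_closure₂ (f := fun p q : D => p + q) continuous_add ha hb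
      fun _ hp _ hq => J.add_mem hp hq)
    (fun hx => map_mem_closure continuous_neg hx fun _ ha => J.neg_mem ha)
    (fun {a b} hb => map_mem_closure (f := fun p : D => a * p) (continuous_const_mul a) hb
      fun p hp => J.mul_mem_left a p hp)
    (fun {a b} ha => map_mem_closure (f := fun p : D => p * b) (continuous_mul_const b) ha
      fun p hp => J.mul_mem_right p b hp)

lemma mem_cl {J : TwoSidedIdeal D} {x : D} : x ∈ cl J ↔ x ∈ closure (J : Set D) := by
  simp [cl, TwoSidedIdeal.mem_mk']

lemma le_cl {J : TwoSidedIdeal D} {x : D} (h : x ∈ J) : x ∈ cl J := mem_cl.2 (subset_closure h)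

lemma isClosed_cl (J : TwoSidedIdeal D) : IsClosed (cl J : Set D) := by
  have : (cl J : Set D) = closure (J : Set D) := Set.ext fun x => mem_cl
  rw [this]
  exact isClosed_closure

lemma one_mem_of_cl {J : TwoSidedIdeal D} (h : (1 : D) ∈ cl J) : (1 : D) ∈ J := by
  obtain ⟨z, hz, hd⟩ := Metric.mem_closure_iff.1 (mem_cl.1 h) 1 one_pos
  exact one_mem_of_near hz (by rwa [← dist_eq_norm])

lemma cfc_mem {J : TwoSidedIdeal D} {x : D} (hx : IsSelfAdjoint x) (h : x ∈ J) {f g : ℝ → ℝ}
    (hg : Continuous g) (hfg : ∀ t, f t = t * g t) : cfc f x ∈ J := by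
  rw [show f = fun t => t * g t from funext hfg,
    cfc_mul (fun t : ℝ => t) g x continuousOn_id hg.continuousOn, cfc_id' ℝ x]
  exact J.mul_mem_right _ _ h

/-- Closed ideals are hereditary. -/
lemma mem_cl_of_le [PartialOrder D] [StarOrderedRing D] {J : TwoSidedIdeal D} {b j : D}
    (h : star b * b ≤ j) (hj : j ∈ cl J) : b ∈ cl J := by
  have hj0 : 0 ≤ j := (star_mul_self_nonneg b).trans h
  have hjsa : IsSelfAdjoint j := IsSelfAdjoint.of_nonneg hj0
  refine (isClosed_cl J).closure_subset (Metric.mem_closure_iff.2 fun δ hδ => ?_)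
  set η : ℝ := δ ^ 2 / 2 with hη
  have hη0 : 0 < η := by positivity
  set f : ℝ → ℝ := fun t => 1 / (max t 0 + η) with hf
  have hcf : Continuous f := continuous_const.div (by fun_prop) fun t => ne_of_gt
    (add_pos_of_nonneg_of_pos (le_max_right t 0) hη0)
  set k := cfc (fun t : ℝ => t * f t) j with hk
  refine ⟨b * k, (cl J).mul_mem_left b _ (cfc_mem hjsa hj hcf fun _ => rfl), ?_⟩
  set l := cfc (fun t : ℝ => 1 - t * f t) j with hl
  have hlsa : IsSelfAdjoint l := cfc_predicate _ j
  have e : b - b * k = b * l := by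
    rw [hl, cfc_sub (fun _ : ℝ => (1 : ℝ)) (fun t => t * f t) j continuousOn_const
      (continuous_id.mul hcf).continuousOn, cfc_const_one ℝ j, mul_sub, mul_one, hk]
  have hcl : Continuous fun t : ℝ => 1 - t * f t := continuous_const.sub (continuous_id.mul hcf)
  have hb : star (b * l) * (b * l) ≤ l * j * l := by
    rw [star_mul, hlsa.star_eq, mul_assoc, ← mul_assoc (star b), ← mul_assoc]
    exact (mul_assoc l (star b * b) l).symm ▸ hlsa.conjugate_le_conjugate h
  have e2 : l * j * l = cfc (fun t : ℝ => (1 - t * f t) * t * (1 - t * f t)) j := by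
    rw [cfc_mul (fun t : ℝ => (1 - t * f t) * t) (fun t => 1 - t * f t) j
      (hcl.mul continuous_id).continuousOn hcl.continuousOn,
      cfc_mul (fun t : ℝ => 1 - t * f t) (fun t => t) j hcl.continuousOn, cfc_id' ℝ j, hl]
  have hn : ‖l * j * l‖ ≤ η := by
    rw [e2]
    refine norm_cfc_le hη0.le fun t ht => ?_
    have ht0 : 0 ≤ t := spectrum_nonneg_of_nonneg hj0 ht
    have hpos : 0 < t + η := by linarith
    have h1 : (1 - t * f t) * t * (1 - t * f t) = η ^ 2 * t / (t + η) ^ 2 := by
      simp only [hf, max_eq_left ht0]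
      field_simp
      ring
    rw [h1, Real.norm_eq_abs, abs_of_nonneg (by positivity), div_le_iff₀ (by positivity)]
    nlinarith [mul_nonneg hη0.le (sq_nonneg t), mul_nonneg hη0.le (sq_nonneg η), sq_nonneg t]
  have h2 := (CStarAlgebra.norm_le_norm_of_nonneg_of_le (star_mul_self_nonneg _) hb).trans hn
  rw [CStarRing.norm_star_mul_self, ← pow_two] at h2
  rw [dist_eq_norm, e]
  nlinarith [norm_nonneg (b * l), hδ, hη]

lemma mem_cl_of_sq {J : TwoSidedIdeal D} {b : D} (h : star b * b ∈ cl J) : b ∈ cl J := by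
  let := CStarAlgebra.spectralOrder D
  have := CStarAlgebra.spectralOrderedRing D
  exact mem_cl_of_le le_rfl h

lemma cl_cl {J : TwoSidedIdeal D} {x : D} (h : x ∈ cl (cl J)) : x ∈ cl J :=
  (isClosed_cl J).closure_subset (mem_cl.1 h)

/-- If a full element lives where h is at least c, the part of h above δ is full. -/
lemma full_cut_of_le [PartialOrder D] [StarOrderedRing D] {a h : D} {c δ : ℝ}
    (hh : IsSelfAdjoint h) (hle : c • (star a * a) ≤ star a * h * a) (hδ : δ < c)
    (ha : Full ({a} : Set D)) : Full ({cut δ h} : Set D) := by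
  show (1 : D) ∈ TwoSidedIdeal.span {cut δ h}
  set J := TwoSidedIdeal.span ({cut δ h} : Set D) with hJ
  have hcutle : h ≤ algebraMap ℝ D δ + cut δ h := by
    conv_lhs => rw [← cfc_id' ℝ h]
    rw [cut, ← cfc_const δ h, ← cfc_add (a := h) (fun _ : ℝ => δ) (fun s : ℝ => max (s - δ) 0)]
    exact cfc_mono fun t _ => by linarith [le_max_left (t - δ) 0]
  have h1 : star a * h * a ≤ δ • (star a * a) + star a * cut δ h * a := by
    refine (star_left_conjugate_le_conjugate hcutle a).trans (le_of_eq ?_)
    rw [mul_add, add_mul, Algebra.algebraMap_eq_smul_one, mul_smul_comm, mul_one, smul_mul_assoc]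
  have h2 : (c - δ) • (star a * a) ≤ star a * cut δ h * a := by
    rw [sub_smul, sub_le_iff_le_add']
    exact hle.trans h1
  have h3 : star a * a ≤ (c - δ)⁻¹ • (star a * cut δ h * a) := by
    rw [le_inv_smul_iff_of_pos (sub_pos.2 hδ)]
    exact h2
  have haJ : a ∈ cl J := mem_cl_of_le h3 (le_cl (by
    rw [← Complex.coe_smul, ← mul_one (star a * cut δ h * a), ← mul_smul_comm]
    exact J.mul_mem_right _ _ (J.mul_mem_right _ _ (J.mul_mem_left _ _
      (TwoSidedIdeal.subset_span rfl)))))
  exact one_mem_of_cl (mem_of_full ha (Set.singleton_subset_iff.2 haJ))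

/-- Elements commuting with everything modulo a closed ideal: their functions do too. -/
lemma cfc_central {J : TwoSidedIdeal D} {T : D} (hT : IsSelfAdjoint T)
    (h : ∀ d, T * d - d * T ∈ cl J) {f : ℝ → ℝ} (hf : Continuous f) (d : D) :
    cfc f T * d - d * cfc f T ∈ cl J := by
  let K : StarSubalgebra ℂ D :=
    { carrier := {a | ∀ d, a * d - d * a ∈ cl J}
      mul_mem' := fun {a b} ha hb d => by
        have : a * b * d - d * (a * b) = a * (b * d - d * b) + (a * d - d * a) * b := by
          noncomm_ring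
        rw [this]
        exact (cl J).add_mem ((cl J).mul_mem_left a _ (hb d)) ((cl J).mul_mem_right _ b (ha d))
      one_mem' := fun d => by simp [(cl J).zero_mem]
      add_mem' := fun {a b} ha hb d => by
        have : (a + b) * d - d * (a + b) = (a * d - d * a) + (b * d - d * b) := by noncomm_ring
        rw [this]
        exact (cl J).add_mem (ha d) (hb d)
      zero_mem' := fun d => by simp [(cl J).zero_mem]
      algebraMap_mem' := fun z d => by
        simp [Algebra.commutes, (cl J).zero_mem]
      star_mem' := fun {a} ha d => by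
        let := CStarAlgebra.spectralOrder D
        have := CStarAlgebra.spectralOrderedRing D
        set w := star a * d - d * star a
        refine mem_cl_of_sq ?_
        have e : star w * w = -((a * star d - star d * a) * w) := by
          simp only [w, star_sub, star_mul, star_star]
          noncomm_ring
        rw [e]
        exact (cl J).neg_mem ((cl J).mul_mem_right _ w (ha (star d))) }
  have hK : IsClosed (K : Set D) := by
    have : (K : Set D) = ⋂ d, (fun a => a * d - d * a) ⁻¹' (cl J : Set D) := by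
      ext a
      simp [K]
    rw [this]
    exact isClosed_iInter fun d => (isClosed_cl J).preimage (by fun_prop)
  have hTK : T ∈ K := h
  exact _root_.cfc_mem (hs := hK) (𝕜' := ℂ) f hTK d

end Ideal

section Saturate

variable {G : Type v} {D : Type u}

/-- Renaming of unknowns. -/
def Tm.rename {ι κ : Type} (e : ι → κ) : Tm G D ι → Tm G D κ
  | .var i => .var (e i)
  | .cst d => .cst d
  | .add s t => .add (s.rename e) (t.rename e)
  | .mul s t => .mul (s.rename e) (t.rename e)
  | .smul z t => .smul z (t.rename e)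
  | .adj t => .adj (t.rename e)
  | .app g t => .app g (t.rename e)

/-- The difference of two terms. -/
def Tm.sub {ι : Type} (s t : Tm G D ι) : Tm G D ι := .add s (.smul (-1) t)

variable [CStarAlgebra D]

/-- The sum of a list of terms. -/
def Tm.sum {ι : Type} : List (Tm G D ι) → Tm G D ι
  | [] => .cst 0
  | t :: l => .add t (Tm.sum l)

lemma Tm.eval_sub {ι : Type} (act : G → D ≃⋆ₐ[ℂ] D) (x : ι → D) (s t : Tm G D ι) :
    (s.sub t).eval act x = s.eval act x - t.eval act x := by
  simp [Tm.sub, Tm.eval, sub_eq_add_neg]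

lemma Tm.eval_sum {ι : Type} (act : G → D ≃⋆ₐ[ℂ] D) (x : ι → D) :
    ∀ l : List (Tm G D ι), (Tm.sum l).eval act x = (l.map fun t => t.eval act x).sum
  | [] => rfl
  | t :: l => by simp [Tm.sum, Tm.eval, Tm.eval_sum act x l]

lemma Tm.eval_sum_univ {ι κ : Type} [Fintype κ] (act : G → D ≃⋆ₐ[ℂ] D) (x : ι → D)
    (t : κ → Tm G D ι) :
    (Tm.sum (Finset.univ.toList.map t)).eval act x = ∑ k, (t k).eval act x := by
  rw [Tm.eval_sum, List.map_map, Finset.sum_map_toList]
  rfl

lemma Tm.eval_rename {ι κ : Type} (act : G → D ≃⋆ₐ[ℂ] D) (e : ι → κ) (x : κ → D) :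
    ∀ t : Tm G D ι, (t.rename e).eval act x = t.eval act (x ∘ e)
  | .var i => rfl
  | .cst d => rfl
  | .add s t => by simp [Tm.rename, Tm.eval, Tm.eval_rename act e x s, Tm.eval_rename act e x t]
  | .mul s t => by simp [Tm.rename, Tm.eval, Tm.eval_rename act e x s, Tm.eval_rename act e x t]
  | .smul z t => by simp [Tm.rename, Tm.eval, Tm.eval_rename act e x t]
  | .adj t => by simp [Tm.rename, Tm.eval, Tm.eval_rename act e x t]
  | .app g t => by simp [Tm.rename, Tm.eval, Tm.eval_rename act e x t]

variable [Group G]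

/-- Saturation for a finite index type and countably many relations. -/
lemma Sys.saturate' (sys : Sys G D) {ι : Type} [Fintype ι] {κ : Type*} [Countable κ] [Nonempty κ]
    (B : ℝ) (t : κ → Tm G D ι)
    (h : ∀ (s : Finset κ) (ε : ℝ), 0 < ε → ∃ x : ι → D, (∀ i, ‖x i‖ ≤ B) ∧
      ∀ j ∈ s, ‖(t j).eval sys.act x‖ ≤ ε) :
    ∃ x : ι → D, (∀ i, ‖x i‖ ≤ B) ∧ ∀ j, (t j).eval sys.act x = 0 := by
  classical
  obtain ⟨f, hf⟩ := exists_surjective_nat κ
  let e := Fintype.equivFin ι
  obtain ⟨x, hxB, hx⟩ := sys.saturate (Fintype.card ι) B (fun j => (t (f j)).rename e)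
    fun j₀ ε hε => by
      obtain ⟨x, hxB, hx⟩ := h ((Finset.range j₀).image f) ε hε
      refine ⟨x ∘ e.symm, fun i => hxB _, fun j hj => ?_⟩
      rw [Tm.eval_rename, show (x ∘ e.symm) ∘ e = x by ext i; simp]
      exact hx _ (Finset.mem_image_of_mem _ (Finset.mem_range.2 hj))
  refine ⟨x ∘ e, fun i => hxB _, fun j => ?_⟩
  obtain ⟨k, rfl⟩ := hf j
  rw [← Tm.eval_rename]
  exact hx k

end Saturate

end Vale.Agent.P095.General
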